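import Vale.Agent.P354F.Sp

/-!
Limits of future curves; the Cauchy hypersurface; the exterior ends.
-/

open scoped ContDiff
open Set Filter Topology

namespace Vale.Agent.P354F

open Vale.Agent.P354n (IsFutureCurve)
open Vale.Agent.P354E

/-- A curve whose speed is bounded by the derivative of a convergent function converges. -/
theorem conv_of_dom {E : Type} [NormedAddCommGroup E] [NormedSpace ℝ E] [CompleteSpace E]
    {W W' : ℝ → E} {f f' : ℝ → ℝ} {t0 L : ℝ} (ht0 : t0 < 1)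
    (h1 : ∀ t ∈ Ioo t0 1, HasDerivAt W (W' t) t ∧ HasDerivAt f (f' t) t ∧ ‖W' t‖ ≤ f' t)
    (h2 : Tendsto f (𝓝[<] 1) (𝓝 L)) : ∃ w, Tendsto W (𝓝[<] 1) (𝓝 w) := by
  have k1 : ∀ s ∈ Ioo t0 1, ∀ t ∈ Ioo t0 1, s ≤ t → ‖W t - W s‖ ≤ f t - f s := by
    intro s hs t ht hst
    have hsub : Icc s t ⊆ Ioo t0 1 := fun x hx => ⟨hs.1.trans_le hx.1, hx.2.trans_lt ht.2⟩
    exact image_norm_le_of_norm_deriv_right_le_deriv_boundary' (f := fun x => W x - W s) (f' := W')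
      (B := fun x => f x - f s) (B' := f') (a := s) (b := t)
      (fun x hx => ((h1 x (hsub hx)).1.sub_const _).continuousAt.continuousWithinAt)
      (fun x hx => ((h1 x (hsub (Ico_subset_Icc_self hx))).1.sub_const _).hasDerivWithinAt)
      (by simp) (fun x hx => ((h1 x (hsub hx)).2.1.sub_const _).continuousAt.continuousWithinAt)
      (fun x hx => ((h1 x (hsub (Ico_subset_Icc_self hx))).2.1.sub_const _).hasDerivWithinAt)
      (fun x hx => (h1 x (hsub (Ico_subset_Icc_self hx))).2.2) ⟨hst, le_rfl⟩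
  have k2 : ∀ s ∈ Ioo t0 1, ∀ t ∈ Ioo t0 1, dist (W s) (W t) ≤ |f s - f t| := by
    intro s hs t ht
    rcases le_total s t with h | h
    · rw [dist_comm, dist_eq_norm, abs_sub_comm]
      exact (k1 s hs t ht h).trans (le_abs_self _)
    · rw [dist_eq_norm]
      exact (k1 t ht s hs h).trans (le_abs_self _)
  rw [← cauchy_map_iff_exists_tendsto, cauchy_map_iff', tendsto_uniformity_iff_dist_tendsto_zero]
  have k3 : Tendsto (fun p : ℝ × ℝ => |f p.1 - f p.2|) (𝓝[<] 1 ×ˢ 𝓝[<] 1) (𝓝 0) := by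
    have := ((h2.comp tendsto_fst).sub (h2.comp (tendsto_snd (f := 𝓝[<] (1:ℝ))))).abs
    simpa using this
  refine squeeze_zero' (Eventually.of_forall fun _ => dist_nonneg) ?_ k3
  filter_upwards [prod_mem_prod (Ioo_mem_nhdsLT ht0) (Ioo_mem_nhdsLT ht0)] with p hp
  exact k2 _ hp.1 _ hp.2

lemma mono_lim {f : ℝ → ℝ} (h : StrictMonoOn f (Ioo 0 1)) :
    (∃ L, Tendsto f (𝓝[<] 1) (𝓝 L) ∧ ∀ t ∈ Ioo (0:ℝ) 1, f t < L) ∨ Tendsto f (𝓝[<] 1) atTop := by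
  by_cases hb : BddAbove (f '' Ioo 0 1)
  · refine Or.inl ⟨_, h.monotoneOn.tendsto_nhdsWithin_Ioo_left (nonempty_Ioo.2 zero_lt_one) hb,
      fun t ht => ?_⟩
    have k : (t + 1) / 2 ∈ Ioo (0:ℝ) 1 := ⟨by linarith [ht.1], by linarith [ht.2]⟩
    exact (h ht k (by linarith [ht.2])).trans_le (le_csSup hb ⟨_, k, rfl⟩)
  · refine Or.inr (tendsto_atTop.2 fun b => ?_)
    obtain ⟨_, ⟨t, ht, rfl⟩, h1⟩ := not_bddAbove_iff.1 hb b
    filter_upwards [Ioo_mem_nhdsLT ht.2] with s hs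
    exact h1.le.trans (h.monotoneOn ht ⟨ht.1.trans hs.1, hs.2⟩ hs.1.le)

lemma ev_Ioo {P : ℝ → Prop} (h : ∀ᶠ t in 𝓝[<] (1:ℝ), P t) :
    ∃ t0, 0 ≤ t0 ∧ t0 < 1 ∧ ∀ t ∈ Ioo t0 1, P t := by
  obtain ⟨l, hl, h⟩ := (mem_nhdsLT_iff_exists_Ioo_subset).1 h
  exact ⟨max l 0, le_max_right _ _, max_lt hl zero_lt_one, fun t ht =>
    h ⟨(le_max_left _ _).trans_lt ht.1, ht.2⟩⟩

section
variable {Om r : ℝ × ℝ → ℝ} {a a' : ℝ → P5}

/-- A future curve with bounded `u` and `v` has a limit. -/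
theorem Cur.conv (hO : Continuous Om) (hr : Continuous r) (hO0 : ∀ q, 0 < Om q) (hr0 : ∀ q, 0 < r q)
    (h : Cur Om r a a') {u1 v1 : ℝ} (hu : Tendsto (fun t => (a t).1) (𝓝[<] 1) (𝓝 u1))
    (hv : Tendsto (fun t => (a t).2.1) (𝓝[<] 1) (𝓝 v1)) :
    ∃ z : P5, ‖z.2.2‖ = 1 ∧ Tendsto a (𝓝[<] 1) (𝓝 z) := by
  have hq := hu.prodMk_nhds hv
  have c0 := hr0 (u1, v1)
  have C0 := hO0 (u1, v1)
  have e1 := ((hO.tendsto _).comp hq).eventually (Iic_mem_nhds (lt_add_one (Om (u1, v1))))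
  have e2 := ((hr.tendsto _).comp hq).eventually (Ici_mem_nhds (half_lt_self c0))
  obtain ⟨t0, h0, h1, h2⟩ := ev_Ioo (e1.and e2)
  obtain ⟨K, hK⟩ : ∃ K, K = (Om (u1, v1) + 2) / (r (u1, v1) / 2) := ⟨_, rfl⟩
  obtain ⟨w, hw⟩ := conv_of_dom (W := fun t => (a t).2.2) (W' := fun t => (a' t).2.2)
    (f := fun t => K * ((a t).1 + (a t).2.1)) (f' := fun t => K * ((a' t).1 + (a' t).2.1)) h1
    (fun t ht => by
      have ht' : t ∈ Ioo (0:ℝ) 1 := ⟨h0.trans_lt ht.1, ht.2⟩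
      refine ⟨h.dw ht', ((h.du ht').add (h.dv ht')).const_mul K, ?_⟩
      obtain ⟨k1, k2, k3⟩ := h.tl t ht'
      obtain ⟨k4, k5⟩ : Om ((a t).1, (a t).2.1) ≤ Om (u1, v1) + 1 ∧
        r (u1, v1) / 2 ≤ r ((a t).1, (a t).2.1) := h2 t ht
      simp only [Gm] at k1
      rw [hK, div_mul_eq_mul_div, le_div_iff₀ (half_pos c0)]
      refine abs_le_of_sq_le_sq' ?_ (by positivity) |>.2
      have k6 : (‖(a' t).2.2‖ * (r (u1, v1) / 2)) ^ 2 ≤
          r ((a t).1, (a t).2.1) ^ 2 * ‖(a' t).2.2‖ ^ 2 := by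
        rw [mul_pow, mul_comm]
        exact mul_le_mul_of_nonneg_right (pow_le_pow_left₀ (half_pos c0).le k5 2) (sq_nonneg _)
      have k7 : Om ((a t).1, (a t).2.1) * (a' t).1 * (a' t).2.1 ≤
          (Om (u1, v1) + 1) * ((a' t).1 * (a' t).2.1) := by
        rw [mul_assoc]
        exact mul_le_mul_of_nonneg_right k4 (mul_pos k2 k3).le
      have k8 : (Om (u1, v1) + 1) * ((a' t).1 * (a' t).2.1) ≤
          (Om (u1, v1) + 2) ^ 2 * ((a' t).1 + (a' t).2.1) ^ 2 :=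
        mul_le_mul (by nlinarith) (by nlinarith [mul_pos k2 k3]) (mul_pos k2 k3).le (sq_nonneg _)
      rw [mul_pow (Om (u1, v1) + 2)]
      linarith)
    ((hu.add hv).const_mul K)
  refine ⟨(u1, v1, w), ?_, hu.prodMk_nhds (hv.prodMk_nhds hw)⟩
  refine tendsto_nhds_unique hw.norm (tendsto_const_nhds.congr' ?_)
  filter_upwards [Ioo_mem_nhdsLT zero_lt_one] with t ht
  exact (h.sph t ht).symm

/-- Along a future curve without limit, `u + v` tends to infinity. -/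
theorem Cur.sum_atTop (hO : Continuous Om) (hr : Continuous r) (hO0 : ∀ q, 0 < Om q)
    (hr0 : ∀ q, 0 < r q) (h : Cur Om r a a')
    (hl : ∀ z : P5, ‖z.2.2‖ = 1 → ¬ Tendsto a (𝓝[<] 1) (𝓝 z)) :
    Tendsto (fun t => (a t).1 + (a t).2.1) (𝓝[<] 1) atTop := by
  rcases mono_lim h.umono with ⟨u1, hu, -⟩ | hu <;> rcases mono_lim h.vmono with ⟨v1, hv, -⟩ | hv
  · obtain ⟨z, h1, h2⟩ := h.conv hO hr hO0 hr0 hu hv
    exact (hl z h1 h2).elim
  · exact hu.add_atTop hv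
  · exact hu.atTop_add hv
  · exact hu.atTop_add_atTop hv

/-- The reflection of `u` and `v`. -/
def ng (p : P5) : P5 := (-p.1, -p.2.1, p.2.2)

lemma ng_cont : Continuous ng := by unfold ng; fun_prop

lemma ng_ng (p : P5) : ng (ng p) = p := by simp [ng]

lemma Cur.rev (h : Cur Om r a a') : Cur (fun q => Om (-q)) (fun q => r (-q)) (fun t => ng (a (1 - t)))
    (fun t => -ng (a' (1 - t))) := by
  have m : ∀ t ∈ Ioo (0:ℝ) 1, 1 - t ∈ Ioo (0:ℝ) 1 := fun t ht => ⟨by linarith [ht.2], by linarith [ht.1]⟩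
  refine ⟨fun t ht => ?_, (ng_cont.comp_continuousOn (h.cder.comp (by fun_prop) m)).neg,
    fun t ht => h.sph _ (m t ht), fun t ht => ?_⟩
  · have k1 : HasDerivAt (fun t => (a (1 - t)).1) (-(a' (1 - t)).1) t := (h.du (m t ht)).comp_const_sub 1 t
    have k2 : HasDerivAt (fun t => (a (1 - t)).2.1) (-(a' (1 - t)).2.1) t :=
      (h.dv (m t ht)).comp_const_sub 1 t
    have k3 : HasDerivAt (fun t => (a (1 - t)).2.2) (-(a' (1 - t)).2.2) t :=
      (h.dw (m t ht)).comp_const_sub 1 t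
    exact k1.neg.prodMk (k2.neg.prodMk k3)
  · obtain ⟨k1, k2, k3⟩ := h.tl _ (m t ht)
    simp only [Gm, ng, neg_neg, Prod.neg_mk, norm_neg] at k1 ⊢
    exact ⟨k1, k2, k3⟩

/-- The ends in the exterior region. -/
theorem Cur.far_ext (hO : Continuous Om) (hr : Continuous r) (hO0 : ∀ q, 0 < Om q)
    (hr0 : ∀ q, 0 < r q) (h : Cur Om r a a') {c u1 : ℝ} (hc : 0 < c)
    (h1 : ∀ q : ℝ × ℝ, 0 ≤ q.1 + q.2 → c ≤ r q) (hu : Tendsto (fun t => (a t).1) (𝓝[<] 1) (𝓝 u1))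
    (hu' : ∀ t ∈ Ioo (0:ℝ) 1, (a t).1 < u1) (hv : Tendsto (fun t => (a t).2.1) (𝓝[<] 1) atTop)
    (h2 : ∀ ua, ∃ va c, 0 < c ∧ ∀ u ∈ Icc ua u1, ∀ v, va ≤ v → c ≤ Om (u, v)) : FarA Om r a := by
  by_cases hM : ∃ M, ∀ t ∈ Ioo (1 / 2 : ℝ) 1, ang a' (1 / 2) t ≤ M
  · obtain ⟨M, hM⟩ := hM
    refine far_of_finite hO hr hO0 hr0 h hM hv fun s hs => ?_
    obtain ⟨va, c1, hc1, h3⟩ := h2 (a s).1
    obtain ⟨q, -, h4⟩ := (isCompact_Icc.prod isCompact_Icc).exists_isMinOn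
      (s := Icc (a s).1 u1 ×ˢ Icc (a s).2.1 (max va (a s).2.1))
      ((nonempty_Icc.2 (hu' s hs).le).prod (nonempty_Icc.2 (le_max_right _ _))) hO.continuousOn
    refine ⟨min c1 (Om q), lt_min hc1 (hO0 q), u1, hu' s hs, fun u hu v hv => ?_⟩
    rcases le_total va v with k | k
    · exact (min_le_left _ _).trans (h3 u hu v k)
    · exact (min_le_right _ _).trans (h4 (show (u, v) ∈ _ from ⟨hu, hv, k.trans (le_max_left _ _)⟩))
  · obtain ⟨t0, -, k1, k2⟩ := ev_Ioo ((hu.add_atTop hv).eventually (eventually_ge_atTop 0))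
    refine far_of_infinite hO hr hO0 hr0 h hc k1 (fun t ht => h1 _ (k2 t ht)) fun M => ?_
    by_contra hn
    exact hM ⟨M, fun t ht => (not_le.1 fun k => hn ⟨t, ht, k⟩).le⟩

end

lemma lim_of_emb {a : ℝ → P2 × S2} {l : Filter ℝ} {z : P5} (h1 : ‖z.2.2‖ = 1)
    (h2 : Tendsto (fun s => emb (a s)) l (𝓝 z)) : Tendsto a l (𝓝 (prj z)) := by
  rw [emb_inducing.tendsto_nhds_iff, emb_prj h1]
  exact h2

lemma mem_range_jj (S : Fld) (p : P2 × S2) : p ∈ range (jj S) ↔ p.1.1 + p.1.2 = 0 := by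
  constructor
  · rintro ⟨z, rfl⟩
    exact neg_add_cancel _
  · intro h
    exact ⟨(p.1.2, p.2), Prod.ext (Prod.ext (by show -p.1.2 = p.1.1; linarith) rfl) rfl⟩

theorem jj_embedding (S : Fld) : IsEmbedding (jj S) :=
  Function.LeftInverse.isEmbedding (f := fun p : P2 × S2 => (p.1.2, p.2)) (g := jj S) (fun _ => rfl)
    (by fun_prop) (show Continuous fun z : ℝ × S2 => (((-z.1, z.1), z.2) : P2 × S2) by fun_prop)

/-- **The Cauchy hypersurface.** -/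
theorem cauchy {S : Fld} (hO : Continuous S.O) (hr : Continuous S.r) (hr0 : ∀ q, 0 < S.r q)
    (a : ℝ → P2 × S2) (ha : IsFutureCurve (sp S) 0 (Ioo 0 1) a)
    (hl : ∀ x, ¬ Tendsto a (𝓝[<] 1) (𝓝 x) ∧ ¬ Tendsto a (𝓝[>] 0) (𝓝 x)) :
    ∃! t, t ∈ Ioo (0 : ℝ) 1 ∧ a t ∈ range (jj S) := by
  have h := cur_of_curve (uniqueDiffOn_Ioo 0 1) subset_rfl ha
  have h1 := h.sum_atTop hO hr (O_pos' S) hr0 fun z k1 k2 => (hl _).1 (lim_of_emb k1 k2)
  have h2 := h.rev.sum_atTop (hO.comp continuous_neg) (hr.comp continuous_neg) (fun _ => O_pos' S _)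
    (fun _ => hr0 _) fun z k1 k2 => (hl (prj (ng z))).2 (by
      refine lim_of_emb (z := ng z) k1 ?_
      have k3 : Tendsto (fun t : ℝ => 1 - t) (𝓝[>] 0) (𝓝[<] 1) := by
        refine tendsto_nhdsWithin_iff.2 ⟨?_, ?_⟩
        · have : Tendsto (fun t : ℝ => 1 - t) (𝓝 0) (𝓝 (1 - 0)) :=
            (continuous_const.sub continuous_id).tendsto 0
          rw [sub_zero] at this
          exact this.mono_left nhdsWithin_le_nhds
        · filter_upwards [self_mem_nhdsWithin] with t ht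
          exact sub_lt_self (1:ℝ) (mem_Ioi.1 ht)
      refine (((ng_cont.tendsto z).comp k2).comp k3).congr fun t => ?_
      simp only [Function.comp, ng_ng, sub_sub_cancel])
  obtain ⟨t1, k1, m1⟩ := ((h1.eventually (eventually_ge_atTop 0)).and
    (Ioo_mem_nhdsLT zero_lt_one)).exists
  obtain ⟨t2, k2, m2⟩ := ((h2.eventually (eventually_ge_atTop 0)).and
    (Ioo_mem_nhdsLT zero_lt_one)).exists
  have m3 : 1 - t2 ∈ Ioo (0:ℝ) 1 := ⟨by linarith [m2.2], by linarith [m2.1]⟩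
  have hm : StrictMonoOn (fun t => (emb (a t)).1 + (emb (a t)).2.1) (Ioo 0 1) := h.umono.add h.vmono
  obtain ⟨t, ht, h3⟩ := isPreconnected_Ioo.intermediate_value m3 m1 (h.cont.fst.add h.cont.snd.fst)
    (show (0:ℝ) ∈ _ from ⟨by simp only [ng] at k2; simp only [Pi.add_apply]; linarith, k1⟩)
  refine ⟨t, ⟨ht, (mem_range_jj S _).2 h3⟩, fun t' ht' => hm.injOn ht'.1 ht ?_⟩
  exact ((mem_range_jj S _).1 ht'.2).trans (Eq.symm h3)

end Vale.Agent.P354F
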