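import Vale.Agent.P354E.GeoDefs

/-!
The blocks of the geometric part which concern the field equations and the singular boundary.
-/

open scoped ContDiff
open MeasureTheory Set Filter Topology

namespace Vale.Agent.P354F

open Vale.Agent.P354n (R4 Spc On tgt co inv IsConn IsFutureCurve EndsAtFront EndsAtCorner)
open Vale.Agent.P354E

/-- the field equations -/
def GEms : Prop :=
  ∀ (e : ℝ) (S : Fld), IsSol e S univ → Smooth S univ → IsEMS (sp S) (phi S) (FF e S)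

/-- the induced data -/
def GInd : Prop :=
  ∀ M e om d S, IsData M e om d → IsSol d.e S univ → Smooth S univ →
    (∀ x : ℝ, dd S (red d) (-x, x) = 0) → ∀ (σ : Bool) (z : ℝ × ℝ × ℝ),
    ∃ (c : (sp S).Chart) (J : ℝ × ℝ × ℝ → R4) (G : R4 → R4 → R4 → R4) (n : R4),
    J = (fun z' : ℝ × ℝ × ℝ => co c (jj S (z'.1, st σ z'.2))) ∧ On c (jj S (z.1, st σ z.2)) ∧
    ContDiffAt ℝ ∞ J z ∧ IsConn ((sp S).g c) G (J z) ∧ (sp S).g c (J z) n n = -1 ∧
    (sp S).g c (J z) n ((sp S).X c (J z)) < 0 ∧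
    lineDeriv ℝ (fun y => phi S (inv c y)) (J z) n = d.g z.1 ∧ ∀ a b,
      (sp S).g c (J z) (lineDeriv ℝ J z a) n = 0 ∧
      (sp S).g c (J z) (lineDeriv ℝ J z a) (lineDeriv ℝ J z b) = sym2 d.a d.b z a b ∧
      -(sp S).g c (J z) n (lineDeriv ℝ (fun z' => lineDeriv ℝ J z' b) z a +
        G (J z) (lineDeriv ℝ J z a) (lineDeriv ℝ J z b)) = sym2 d.k d.l z a b ∧
      FF d.e S c (J z) (lineDeriv ℝ J z a) n = d.e * √(d.a z.1) / d.b z.1 * a.1 ∧
      FF d.e S c (J z) (lineDeriv ℝ J z a) (lineDeriv ℝ J z b) = 0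

/-- curves which end at the Cauchy horizon v = infinity -/
def GFront : Prop :=
  ∀ (e : ℝ) (S : Fld) (V uH : ℝ), IsSol e S univ → Smooth S univ →
    (∃ c, 0 < c ∧ ∀ q : P2, 0 ≤ q.1 + q.2 → c ≤ S.r q) → RS S V uH → Blow S V →
    ∀ a : ℝ → (sp S).pt, IsFutureCurve (sp S) 0 (Ico 0 1) a → ∀ u1, uH < u1 →
      Tendsto (fun t => (a t).1.1) (𝓝[<] 1) (𝓝 u1) → Tendsto (fun t => (a t).1.2) (𝓝[<] 1) atTop →
      EndsAtFront 2 (sp S) a

/-- curves which end at the bifurcation sphere of the Cauchy horizons -/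
def GCorner : Prop :=
  ∀ (e : ℝ) (S : Fld), IsSol e S univ → Smooth S univ → FS S →
    ∀ a : ℝ → (sp S).pt, IsFutureCurve (sp S) 0 (Ico 0 1) a →
      Tendsto (fun t => (a t).1.1) (𝓝[<] 1) atTop → Tendsto (fun t => (a t).1.2) (𝓝[<] 1) atTop →
      EndsAtCorner 2 (sp S) a

end Vale.Agent.P354F
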