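import Vale.Agent.P354F.Sp

/-!
Transport of curves and of their ends along the two symmetries of the plane.
-/

open scoped ContDiff
open Set Filter Topology

namespace Vale.Agent.P354F

open Vale.Agent.P354n (R4 Spc On tgt co inv IsFutureCurve IsFar EndsAtFront EndsAtCorner Ends
  AllEnd IsDNBox EndsAt rev)
open Vale.Agent.P354E

section
variable {M N : Spc}

/-- The charts `e` and `e'` correspond under `Φ`. -/
structure Rel (Φ : M.pt → N.pt) (e : M.Chart) (e' : N.Chart) : Prop where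
  on : ∀ p, On e p ↔ On e' (Φ p)
  co : ∀ p, co e p = co e' (Φ p)
  tgt : tgt e = tgt e'
  g : ∀ y ∈ P354n.tgt e, M.g e y = N.g e' y
  X : ∀ y ∈ P354n.tgt e, M.X e y = N.X e' y

/-- Every chart of `N` corresponds to a chart of `M`. -/
def Pull (Φ : M.pt → N.pt) : Prop := Continuous Φ ∧ ∀ e', ∃ e, Rel Φ e e'

lemma Pull.curve {Φ : M.pt → N.pt} (h : Pull Φ) {m : ℝ} {I : Set ℝ} {c : ℝ → M.pt}
    (hc : IsFutureCurve M m I c) : IsFutureCurve N m I fun s => Φ (c s) := by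
  refine ⟨h.1.comp_continuousOn hc.1, fun t ht e' he' => ?_⟩
  obtain ⟨e, he⟩ := h.2 e'
  have h1 := (he.on _).2 he'
  obtain ⟨h2, h3⟩ := hc.2 t ht e h1
  have h4 : co e (c t) ∈ tgt e := (M.toE e).map_source h1
  simp only [← he.co]
  refine ⟨h2, fun y w hy hw => ?_⟩
  have h5 : y ∈ tgt e := hy ▸ h4
  rw [← he.g y h5, ← he.X y h5]
  exact h3 y w hy hw

lemma Rel.box {Φ : M.pt → N.pt} {e : M.Chart} {e' : N.Chart} (h : Rel Φ e e') {C : ℕ → R4 → ℝ}
    {D : Set R4} {r K : ℝ} {k n : ℝ → ℝ} (hb : IsDNBox N e' C D r K k n) :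
    IsDNBox M e C D r K k n := by
  have hs : D ⊆ P354n.tgt e := h.tgt ▸ hb.subset
  refine ⟨hs, hb.smooth, fun x hx => ?_, hb.integrable⟩
  rw [h.g x (hs hx), h.X x (hs hx)]
  exact hb.metric x hx

lemma Rel.endsAt {Φ : M.pt → N.pt} {e : M.Chart} {e' : N.Chart} (h : Rel Φ e e') {a : ℝ → M.pt}
    {D : Set R4} {z : R4} : EndsAt a e D z ↔ EndsAt (fun s => Φ (a s)) e' D z := by
  simp only [EndsAt, h.on, h.co]

lemma Pull.front {Φ : M.pt → N.pt} (h : Pull Φ) {p : ENNReal} {a : ℝ → M.pt}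
    (ha : EndsAtFront p N fun s => Φ (a s)) : EndsAtFront p M a := by
  obtain ⟨e', C, z, r, K, k, l, h1, h2, h3, h4⟩ := ha
  obtain ⟨e, he⟩ := h.2 e'
  exact ⟨e, C, z, r, K, k, l, he.box h1, h2, he.endsAt.2 h3, h4⟩

lemma Pull.corner {Φ : M.pt → N.pt} (h : Pull Φ) {p : ENNReal} {a : ℝ → M.pt}
    (ha : EndsAtCorner p N fun s => Φ (a s)) : EndsAtCorner p M a := by
  obtain ⟨e', C, z, r, K, k, h1, h2, h3, h4, h5⟩ := ha
  obtain ⟨e, he⟩ := h.2 e'
  exact ⟨e, C, z, r, K, k, he.box h1, h2, h3, he.endsAt.2 h4, fun b hb y k1 k2 k3 k4 =>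
    h.front (h5 _ (h.curve hb) y (he.endsAt.1 k1) k2 k3 k4)⟩

lemma Pull.far {Φ : M.pt → N.pt} {Ψ : N.pt → M.pt} (h : Pull Ψ) (hi : ∀ x, Ψ (Φ x) = x)
    {a : ℝ → M.pt} (ha : IsFar N fun s => Φ (a s)) : IsFar M a := by
  intro b hb
  obtain ⟨s, hs, ha⟩ := ha b hb
  refine ⟨s, hs, fun L => ?_⟩
  obtain ⟨t, ht, H, h1, h2, h3, h4⟩ := ha L
  refine ⟨t, ht, fun q => Ψ (H q), h.1.comp_continuousOn h1, fun x => (congrArg Ψ (h2 x)).trans (hi _),
    fun y hy => ⟨h.curve (h3 y hy).1, (congrArg Ψ (h3 y hy).2.1).trans (hi _),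
      (congrArg Ψ (h3 y hy).2.2).trans (hi _)⟩, h.curve h4⟩

lemma allEnd_of_pull {Φ : M.pt → N.pt} {Ψ : N.pt → M.pt} (h : Pull Φ) (h' : Pull Ψ)
    (hi : ∀ x, Ψ (Φ x) = x) {p : ENNReal} (hN : AllEnd p N) : AllEnd p M := by
  intro a ha hl
  have k := hN _ (h.curve ha) fun x hx => hl (Ψ x) (by
    have := (h'.1.tendsto x).comp hx
    exact this.congr fun s => hi _)
  rcases k with k | k | k
  · exact Or.inl (h.front k)
  · exact Or.inr (Or.inl (h.corner k))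
  · exact Or.inr (Or.inr (h'.far hi k))

end

/-- The chart `L ≫ ξ`. -/
noncomputable def PC.pre (L : P2 ≃L[ℝ] P2) (c : PC) : PC where
  ξ := L.toHomeomorph.transOpenPartialHomeomorph c.ξ
  sm := c.sm.comp L.contDiff.contDiffOn fun _ h => h
  sm' := L.symm.contDiff.comp_contDiffOn c.sm'

/-- The map of the product induced by `L`. -/
def lift (L : P2 ≃L[ℝ] P2) (p : P2 × S2) : P2 × S2 := (L p.1, p.2)

lemma lift_cont (L : P2 ≃L[ℝ] P2) : Continuous (lift L) := by unfold lift; fun_prop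

section
variable (L : P2 ≃L[ℝ] P2) (c : PC × Bool) {y : R4}

lemma bq_pre : L (bq (PC.pre L c.1, c.2) y) = bq c y := L.apply_symm_apply _

lemma bv_pre (h : p2 y ∈ c.1.ξ.target) (a : R4) : L (bv (PC.pre L c.1, c.2) y a) = bv c y a := by
  have h1 := ((PC.smAt' c.1 h).differentiableAt (by simp)).hasFDerivAt
  have h2 : HasFDerivAt (PC.pre L c.1).ξ.symm _ (p2 y) := L.symm.hasFDerivAt.comp (p2 y) h1
  simp only [bv]
  rw [h2.fderiv]
  exact L.apply_symm_apply _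

lemma fd_pre (h : p2 y ∈ c.1.ξ.target) (a : P2) :
    fderiv ℝ (PC.pre L c.1).ξ (bq (PC.pre L c.1, c.2) y) a = fderiv ℝ c.1.ξ (bq c y) (L a) := by
  have h1 := ((PC.smAt c.1 (c.1.ξ.map_target h)).differentiableAt (by simp)).hasFDerivAt
  have h2 : HasFDerivAt (PC.pre L c.1).ξ _ (bq (PC.pre L c.1, c.2) y) :=
    HasFDerivAt.comp (g := c.1.ξ) (f := L) _ (by rw [bq_pre]; exact h1) L.hasFDerivAt
  rw [h2.fderiv]
  rfl

lemma gS_pre {S T : Fld} (hO : ∀ q, S.O q = T.O (L q)) (hr : ∀ q, S.r q = T.r (L q))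
    (hL : ∀ a b : P2, (L a).1 * (L b).2 + (L a).2 * (L b).1 = a.1 * b.2 + a.2 * b.1)
    (h : p2 y ∈ c.1.ξ.target) : gS S (PC.pre L c.1, c.2) y = gS T c y := by
  funext a b
  simp only [gS]
  rw [hO, hr, bq_pre, ← hL, bv_pre L c h, bv_pre L c h]

end

/-- The exchange of `u` and `v`. -/
def Lsw : P2 ≃L[ℝ] P2 := ContinuousLinearEquiv.prodComm ℝ ℝ ℝ

/-- Time reversal. -/
def Ltr : P2 ≃L[ℝ] P2 := (ContinuousLinearEquiv.prodComm ℝ ℝ ℝ).trans (ContinuousLinearEquiv.neg ℝ)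

lemma Lsw_apply (q : P2) : Lsw q = q.swap := rfl
lemma Ltr_apply (q : P2) : Ltr q = tr q := rfl

lemma pull_sw {S T : Fld} (hO : ∀ q, S.O q = T.O q.swap) (hr : ∀ q, S.r q = T.r q.swap) :
    Pull (M := sp S) (N := sp T) (lift Lsw) := by
  refine ⟨lift_cont _, fun (c : PC × Bool) => ⟨(PC.pre Lsw c.1, c.2), fun _ => Iff.rfl, fun _ => rfl,
    rfl, fun y hy => gS_pre Lsw c hO hr (fun a b => ?_) hy, fun y hy => ?_⟩⟩
  · simp only [Lsw_apply, Prod.fst_swap, Prod.snd_swap]; ring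
  · show XS _ y = XS c y
    simp only [XS]
    rw [fd_pre Lsw c hy]
    rfl

lemma XS_tr (c : PC × Bool) {y : R4} (hy : p2 y ∈ c.1.ξ.target) :
    XS (PC.pre Ltr c.1, c.2) y = -XS c y := by
  simp only [XS]
  rw [fd_pre Ltr c hy, show Ltr (1, 1) = -(1, 1) from rfl, map_neg]
  simp

lemma Ltr_form (a b : P2) : (Ltr a).1 * (Ltr b).2 + (Ltr a).2 * (Ltr b).1 = a.1 * b.2 + a.2 * b.1 := by
  simp only [Ltr_apply, tr]; ring

lemma tr_tr' (q : P2) : tr (tr q) = q := by simp [tr]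

lemma pull_tr (S : Fld) : Pull (M := rev (sp S)) (N := sp S.tr) (lift Ltr) := by
  refine ⟨lift_cont _, fun (c : PC × Bool) => ⟨(PC.pre Ltr c.1, c.2), fun _ => Iff.rfl, fun _ => rfl,
    rfl, fun y hy => gS_pre Ltr c (S := S) (T := S.tr) (fun q => ?_) (fun q => ?_) Ltr_form hy,
    fun y hy => ?_⟩⟩
  · show S.O q = S.O (tr (tr q))
    rw [tr_tr']
  · show S.r q = S.r (tr (tr q))
    rw [tr_tr']
  · show -XS _ y = XS c y
    rw [XS_tr c hy, neg_neg]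

lemma pull_tr' (S : Fld) : Pull (M := sp S.tr) (N := rev (sp S)) (lift Ltr) :=
  ⟨lift_cont _, fun (c : PC × Bool) => ⟨(PC.pre Ltr c.1, c.2), fun _ => Iff.rfl, fun _ => rfl,
    rfl, fun _ hy => gS_pre Ltr c (S := S.tr) (T := S) (fun _ => rfl) (fun _ => rfl) Ltr_form hy,
    fun _ hy => XS_tr c hy⟩⟩

/-- A future curve of `sp S` gives a future curve of `sp S.sw`. -/
theorem curve_sw {S : Fld} {m : ℝ} {I : Set ℝ} {a : ℝ → (sp S).pt} (h : IsFutureCurve (sp S) m I a) :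
    IsFutureCurve (sp S.sw) m I fun s => lift Lsw (a s) :=
  (pull_sw (S := S) (T := S.sw) (fun _ => rfl) fun _ => rfl).curve h

theorem front_of_sw {S : Fld} {p : ENNReal} {a : ℝ → (sp S).pt}
    (h : EndsAtFront p (sp S.sw) fun s => lift Lsw (a s)) : EndsAtFront p (sp S) a :=
  (pull_sw (S := S) (T := S.sw) (fun _ => rfl) fun _ => rfl).front h

theorem allEnd_rev {S : Fld} {p : ENNReal} (h : AllEnd p (sp S.tr)) : AllEnd p (rev (sp S)) :=
  allEnd_of_pull (pull_tr S) (pull_tr' S) (fun x => Prod.ext (tr_tr' x.1) rfl) h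

end Vale.Agent.P354F
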