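import Vale.Agent.P354F.Geo
import Vale.Agent.P354G.Ind

/-!
The geometric block from the two blocks on the singular boundary.
-/

open Set

namespace Vale.Agent.P354F

open Vale.Agent.P354E

theorem gEms : GEms := fun _ _ h1 h2 => P354G.isEMS ⟨h1, h2⟩

theorem gInd : GInd := fun _ _ _ _ _ hd hs hm h0 =>
  (P354G.isDev hd ⟨hs, hm⟩ h0 (cauchy (Real.continuous_exp.comp (continuousOn_univ.1 hs.cont.w))
    (continuousOn_univ.1 hs.cont.r) fun q => (hs.sol q (mem_univ q)).pos)).induced

theorem bGeo' (h3 : GFront) (h4 : GCorner) : BGeo := bGeo gEms gInd h3 h4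

end Vale.Agent.P354F
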