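import Vale.Agent.P354F.Inv

/-!
Families of timelike curves for metrics `-Om du dv + r^2 |dw|^2`: constant speed, and sliding of the
angular motion.
-/

open Set Filter Topology MeasureTheory

namespace Vale.Agent.P354F

/-- The space that contains the sphere. -/
abbrev E3 : Type := EuclideanSpace ℝ (Fin 3)

/-- Points and vectors `(u, v, w)`. -/
abbrev P5 : Type := ℝ × ℝ × E3

/-- The form `-Om du dv + r^2 |dw|^2` at `p` on the vector `w`. -/
noncomputable def Gm (Om r : ℝ × ℝ → ℝ) (p w : P5) : ℝ :=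
  -(Om (p.1, p.2.1) * w.1 * w.2.1) + r (p.1, p.2.1) ^ 2 * ‖w.2.2‖ ^ 2

lemma Gm_smul (Om r : ℝ × ℝ → ℝ) (p w : P5) (k : ℝ) : Gm Om r p (k • w) = k ^ 2 * Gm Om r p w := by
  simp only [Gm, Prod.smul_fst, Prod.smul_snd, smul_eq_mul, norm_smul, mul_pow, Real.norm_eq_abs,
    sq_abs]
  ring

/-- A continuous family of future timelike curves on `[α, β]` with fixed ends. -/
structure Fam (Om r : ℝ × ℝ → ℝ) (α β : ℝ) (c c' : ℝ → ℝ → P5) : Prop where
  cont : Continuous fun q : ℝ × ℝ => c q.1 q.2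
  der : ∀ y x, HasDerivAt (c y) (c' y x) x
  cder : ∀ y, Continuous (c' y)
  sph : ∀ y, ∀ x ∈ Icc α β, ‖(c y x).2.2‖ = 1
  tl : ∀ y, ∀ x ∈ Icc α β, Gm Om r (c y x) (c' y x) < 0 ∧ 0 < (c' y x).1 ∧ 0 < (c' y x).2.1
  e0 : ∀ y, c y α = c 0 α
  e1 : ∀ y, c y β = c 0 β

lemma cl01_zero : cl 0 1 0 = 0 := cl_eq ⟨le_rfl, zero_le_one⟩
lemma cl01_one : cl 0 1 1 = 1 := cl_eq ⟨zero_le_one, le_rfl⟩

/-- **Constant speed.** -/
theorem const_speed {Om r : ℝ × ℝ → ℝ} (hO : Continuous Om) (hr : Continuous r) {α β : ℝ}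
    (h : α < β) {c c' : ℝ → ℝ → P5} (hF : Fam Om r α β c c') {L : ℝ}
    (hL : √L < ∫ x in α..β, √(-Gm Om r (c 1 x) (c' 1 x))) :
    ∃ H H' : ℝ → ℝ → P5, Fam Om r 0 1 H H' ∧ (∀ x, H 0 x = c 0 (α + (β - α) * x)) ∧
      ∀ x ∈ Icc (0:ℝ) 1, Gm Om r (H 1 x) (H' 1 x) < -L := by
  have hc1 : Continuous (c 1) := hF.cont.comp (continuous_const.prodMk continuous_id)
  have hc1' : Continuous (c' 1) := hF.cder 1
  set p : ℝ → ℝ := fun x => √(-Gm Om r (c 1 x) (c' 1 x)) with hp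
  have hpc : Continuous p := by
    simp only [hp, Gm]
    fun_prop
  have hp0 : ∀ x ∈ Icc α β, 0 < p x := fun x hx =>
    Real.sqrt_pos.2 (by linarith [(hF.tl 1 x hx).1])
  set P := prim α β p β with hP
  have hPe : P = ∫ x in α..β, p x := prim_eq p ⟨h.le, le_rfl⟩
  have hP0 : 0 < P := by
    rw [hPe]; exact (Real.sqrt_nonneg L).trans_lt hL
  set ρ : ℝ → ℝ := fun z => pinv α β p (P * z) with hρ
  have hρc : Continuous ρ := (pinv_cont h.le hpc hp0).comp (continuous_const.mul continuous_id)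
  set ρ' : ℝ → ℝ := fun z => (p (cl α β (ρ z)))⁻¹ * P with hρ'
  have hρd : ∀ z, HasDerivAt ρ (ρ' z) z := by
    intro z
    have k1 : HasDerivAt (fun z : ℝ => P * z) P z := by
      simpa using (hasDerivAt_id z).const_mul P
    exact (pinv_deriv h.le hpc hp0 (P * z)).comp z k1
  have hρ'0 : ∀ z, 0 < ρ' z := fun z => mul_pos (inv_pos.2 (hp0 _ (cl_mem h.le _))) hP0
  have hρ'c : Continuous ρ' := by
    refine Continuous.mul (Continuous.inv₀ (hpc.comp ((cl_cont α β).comp hρc)) fun z => ?_)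
      continuous_const
    exact (hp0 _ (cl_mem h.le _)).ne'
  have hρm : ∀ z ∈ Icc (0:ℝ) 1, ρ z ∈ Icc α β := fun z hz =>
    pinv_mem h.le hpc hp0 (mul_nonneg hP0.le hz.1) (by nlinarith [hz.2])
  have hρ0 : ρ 0 = α := by simp only [hρ, mul_zero]; exact pinv_zero h.le hpc hp0
  have hρ1 : ρ 1 = β := by simp only [hρ, mul_one]; exact pinv_prim h.le hpc hp0 β
  set X : ℝ → ℝ → ℝ := fun y z => (1 - cl 0 1 y) * (α + (β - α) * z) + cl 0 1 y * ρ z with hX
  set X' : ℝ → ℝ → ℝ := fun y z => (1 - cl 0 1 y) * (β - α) + cl 0 1 y * ρ' z with hX'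
  have hXc : Continuous fun q : ℝ × ℝ => X q.1 q.2 := by
    have := cl_cont 0 1
    simp only [hX]
    fun_prop
  have hXd : ∀ y z, HasDerivAt (X y) (X' y z) z := by
    intro y z
    have k1 : HasDerivAt (fun z : ℝ => α + (β - α) * z) (β - α) z := by
      simpa using ((hasDerivAt_id z).const_mul (β - α)).const_add α
    exact (k1.const_mul _).add ((hρd z).const_mul _)
  have hX'0 : ∀ y z, 0 < X' y z := by
    intro y z
    obtain ⟨k0, k1⟩ := cl_mem (zero_le_one' ℝ) y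
    have k2 := hρ'0 z
    have k3 : 0 < β - α := by linarith
    rcases eq_or_lt_of_le k0 with e | e
    · simp only [hX', ← e]; linarith
    · have := mul_pos e k2
      have := mul_nonneg (sub_nonneg.2 k1) k3.le
      simp only [hX']; linarith
  have hXm : ∀ y, ∀ z ∈ Icc (0:ℝ) 1, X y z ∈ Icc α β := by
    intro y z hz
    obtain ⟨k0, k1⟩ := cl_mem (zero_le_one' ℝ) y
    obtain ⟨k2, k3⟩ := hρm z hz
    have k4 : α ≤ α + (β - α) * z := by nlinarith [hz.1]
    have k5 : α + (β - α) * z ≤ β := by nlinarith [hz.2]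
    constructor
    · simp only [hX]; nlinarith
    · simp only [hX]; nlinarith
  refine ⟨fun y z => c y (X y z), fun y z => X' y z • c' y (X y z), ⟨?_, ?_, ?_, ?_, ?_, ?_, ?_⟩,
    ?_, ?_⟩
  · exact hF.cont.comp (continuous_fst.prodMk hXc)
  · intro y z
    exact (hF.der y (X y z)).scomp z (hXd y z)
  · intro y
    have k1 : Continuous (X y) := hXc.comp (continuous_const.prodMk continuous_id)
    have k2 : Continuous (X' y) := by simp only [hX']; fun_prop
    exact k2.smul ((hF.cder y).comp k1)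
  · intro y z hz
    exact hF.sph y _ (hXm y z hz)
  · intro y z hz
    obtain ⟨k1, k2, k3⟩ := hF.tl y _ (hXm y z hz)
    have k0 := hX'0 y z
    refine ⟨?_, mul_pos k0 k2, mul_pos k0 k3⟩
    rw [Gm_smul]
    exact mul_neg_of_pos_of_neg (by positivity) k1
  · intro y
    have e : ∀ y, X y 0 = α := fun y => by simp only [hX, hρ0]; ring
    show c y (X y 0) = c 0 (X 0 0)
    rw [e, e, hF.e0]
  · intro y
    have e : ∀ y, X y 1 = β := fun y => by simp only [hX, hρ1]; ring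
    show c y (X y 1) = c 0 (X 0 1)
    rw [e, e, hF.e1]
  · intro x
    show c 0 (X 0 x) = _
    simp only [hX, cl01_zero]
    congr 1
    ring
  · intro z hz
    have e1 : X 1 z = ρ z := by simp only [hX, cl01_one]; ring
    have e2 : X' 1 z = ρ' z := by simp only [hX', cl01_one]; ring
    show Gm Om r (c 1 (X 1 z)) (X' 1 z • c' 1 (X 1 z)) < -L
    rw [Gm_smul, e1, e2]
    have k1 := hρm z hz
    have k2 : p (ρ z) ^ 2 = -Gm Om r (c 1 (ρ z)) (c' 1 (ρ z)) :=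
      Real.sq_sqrt (by linarith [(hF.tl 1 _ k1).1])
    have k3 := hp0 _ k1
    have k4 : ρ' z ^ 2 * Gm Om r (c 1 (ρ z)) (c' 1 (ρ z)) = -P ^ 2 := by
      have : Gm Om r (c 1 (ρ z)) (c' 1 (ρ z)) = -p (ρ z) ^ 2 := by linarith
      rw [this]
      simp only [hρ', cl_eq k1]
      field_simp
    rw [k4]
    have k5 : √L < P := by rw [hPe]; exact hL
    have k6 : L < P ^ 2 := by
      rcases le_or_gt L 0 with hl | hl
      · exact hl.trans_lt (by positivity)
      · rwa [Real.sqrt_lt' hP0] at k5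
    linarith

/-- The reparametrisations used for sliding. -/
theorem exists_sigma {α β : ℝ} (h : α < β) {l b : ℝ → ℝ → ℝ}
    (cl2 : Continuous fun q : ℝ × ℝ => l q.1 q.2) (cb : Continuous fun q : ℝ × ℝ => b q.1 q.2)
    (l0 : ∀ j x, 0 < l j x) (b0 : ∀ y ∈ Icc (0:ℝ) 1, ∀ x ∈ Icc α β, 0 < b y x)
    (h0 : ∀ x ∈ Icc α β, l 0 x ≤ b 0 x)
    (h1 : ∀ y ∈ Icc (0:ℝ) 1, ∫ x in α..β, l y x ≤ ∫ x in α..β, b y x) :
    ∃ (J : ℝ → ℝ) (σ σ' : ℝ → ℝ → ℝ), Continuous J ∧ (∀ y, J y ∈ Icc (0:ℝ) 1) ∧ J 0 = 0 ∧ J 1 = 1 ∧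
      (Continuous fun q : ℝ × ℝ => σ q.1 q.2) ∧ (∀ y x, HasDerivAt (σ y) (σ' y x) x) ∧
      (∀ y, Continuous (σ' y)) ∧ (∀ y, ∀ x ∈ Icc α β, σ y x ∈ Icc α β) ∧ (∀ y, σ y α = α) ∧
      (∀ y, σ y β = β) ∧ (∀ x, σ 0 x = x) ∧
      (∀ y, ∀ x ∈ Icc α β, 0 < σ' y x ∧ l (J y) (σ y x) * σ' y x ≤ b (J y) x) ∧
      ∀ x ∈ Icc α β, l 1 (σ 1 x) * σ' 1 x = ((∫ x in α..β, l 1 x) / ∫ x in α..β, b 1 x) * b 1 x := by
  have hcl := cl_cont 0 1
  obtain ⟨A, hA⟩ : ∃ A : ℝ → ℝ, A = fun y => cl 0 1 (2 * y) := ⟨_, rfl⟩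
  obtain ⟨J, hJ⟩ : ∃ J : ℝ → ℝ, J = fun y => cl 0 1 (2 * y - 1) := ⟨_, rfl⟩
  have cA : Continuous A := by rw [hA]; exact hcl.comp (by fun_prop)
  have cJ : Continuous J := by rw [hJ]; exact hcl.comp (by fun_prop)
  have mA : ∀ y, A y ∈ Icc (0:ℝ) 1 := fun y => by rw [hA]; exact cl_mem zero_le_one _
  have mJ : ∀ y, J y ∈ Icc (0:ℝ) 1 := fun y => by rw [hJ]; exact cl_mem zero_le_one _
  have hAJ : ∀ y, A y = 1 ∨ J y = 0 := by
    intro y
    rcases le_total y (1 / 2) with hy | hy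
    · right
      simp only [hJ, cl]
      exact max_eq_left ((min_le_left _ _).trans (by linarith))
    · left
      simp only [hA, cl]
      rw [min_eq_right (by linarith)]
      exact max_eq_right zero_le_one
  have A0 : A 0 = 0 := by simp only [hA, mul_zero, cl01_zero]
  have J0 : J 0 = 0 := by
    simp only [hJ, cl]; norm_num
  have A1 : A 1 = 1 := by
    simp only [hA, cl]; norm_num
  have J1 : J 1 = 1 := by
    simp only [hJ, cl]; norm_num
  clear hA hJ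
  have cl1 : ∀ j, Continuous (l j) := fun j => cl2.comp (continuous_const.prodMk continuous_id)
  have cb1 : ∀ j, Continuous (b j) := fun j => cb.comp (continuous_const.prodMk continuous_id)
  have hβ : β ∈ Icc α β := ⟨h.le, le_rfl⟩
  have Bpos : ∀ j ∈ Icc (0:ℝ) 1, 0 < prim α β (b j) β := by
    intro j hj
    have := prim_strictMono h.le (cb1 j) (b0 j hj) h
    rwa [prim_left] at this
  have Lpos : ∀ j, 0 < prim α β (l j) β := by
    intro j
    have := prim_strictMono h.le (cl1 j) (fun x _ => l0 j x) h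
    rwa [prim_left] at this
  obtain ⟨θ, hθ⟩ : ∃ θ : ℝ → ℝ, ∀ j, θ j = prim α β (l j) β / prim α β (b j) β := ⟨_, fun _ => rfl⟩
  have θ0 : ∀ j ∈ Icc (0:ℝ) 1, 0 < θ j := fun j hj => by
    rw [hθ]; exact div_pos (Lpos j) (Bpos j hj)
  have θ1 : ∀ j ∈ Icc (0:ℝ) 1, θ j ≤ 1 := by
    intro j hj
    rw [hθ]
    refine (div_le_one (Bpos j hj)).2 ?_
    rw [prim_eq _ hβ, prim_eq _ hβ]
    exact h1 j hj
  have cpl := prim_cont2 (α := α) (β := β) cl2
  have cpb := prim_cont2 (α := α) (β := β) cb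
  have cθ : Continuous fun y => θ (J y) := by
    simp only [hθ]
    have k : Continuous fun y : ℝ => (J y, β) := cJ.prodMk continuous_const
    exact Continuous.div (cpl.comp k) (cpb.comp k) fun y => (Bpos _ (mJ y)).ne'
  obtain ⟨τ, hτ⟩ : ∃ τ : ℝ → ℝ → ℝ, ∀ y, τ y = fun x =>
    (1 - A y) * prim α β (l 0) x + A y * (θ (J y) * prim α β (b (J y)) x) := ⟨_, fun _ => rfl⟩
  obtain ⟨τ', hτ'⟩ : ∃ τ' : ℝ → ℝ → ℝ, ∀ y, τ' y = fun x =>
    (1 - A y) * l 0 (cl α β x) + A y * (θ (J y) * b (J y) (cl α β x)) := ⟨_, fun _ => rfl⟩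
  have dτ : ∀ y x, HasDerivAt (τ y) (τ' y x) x := fun y x => by
    rw [hτ, hτ']
    exact ((prim_deriv (cl1 0) x).const_mul _).add (((prim_deriv (cb1 _) x).const_mul _).const_mul _)
  have cτ : Continuous fun q : ℝ × ℝ => τ q.1 q.2 := by
    simp only [hτ]
    have k1 : Continuous fun q : ℝ × ℝ => prim α β (l 0) q.2 :=
      cpl.comp (continuous_const.prodMk continuous_snd : Continuous fun q : ℝ × ℝ => ((0:ℝ), q.2))
    have k2 : Continuous fun q : ℝ × ℝ => prim α β (b (J q.1)) q.2 :=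
      cpb.comp ((cJ.comp continuous_fst).prodMk continuous_snd :
        Continuous fun q : ℝ × ℝ => (J q.1, q.2))
    have k3 : Continuous fun q : ℝ × ℝ => A q.1 := cA.comp continuous_fst
    have k4 : Continuous fun q : ℝ × ℝ => θ (J q.1) := cθ.comp continuous_fst
    exact ((continuous_const.sub k3).mul k1).add (k3.mul (k4.mul k2))
  have cτ' : ∀ y, Continuous (τ' y) := fun y => by
    rw [hτ']
    exact (continuous_const.mul ((cl1 0).comp (cl_cont α β))).add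
      (continuous_const.mul (continuous_const.mul ((cb1 _).comp (cl_cont α β))))
  have τ'0 : ∀ y x, 0 < τ' y x := by
    intro y x
    obtain ⟨k0, k1⟩ := mA y
    have k2 := l0 0 (cl α β x)
    have k3 := mul_pos (θ0 _ (mJ y)) (b0 _ (mJ y) _ (cl_mem h.le x))
    rw [hτ']
    rcases eq_or_lt_of_le k0 with e | e
    · simp only [← e]; linarith
    · have := mul_pos e k3
      have := mul_nonneg (sub_nonneg.2 k1) k2.le
      simp only []; linarith
  have τ'b : ∀ y, ∀ x ∈ Icc α β, τ' y x ≤ b (J y) x := by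
    intro y x hx
    obtain ⟨k0, k1⟩ := mA y
    have k3 : θ (J y) * b (J y) x ≤ b (J y) x := by
      have := b0 _ (mJ y) _ hx
      have := θ1 _ (mJ y)
      nlinarith
    simp only [hτ', cl_eq hx]
    rcases hAJ y with e | e
    · rw [e]; linarith
    · have k4 : l 0 x ≤ b (J y) x := by rw [e]; exact h0 x hx
      nlinarith
  have τα : ∀ y, τ y α = 0 := fun y => by simp only [hτ, prim_left]; ring
  have τβ : ∀ y, τ y β = prim α β (l (J y)) β := by
    intro y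
    have k : θ (J y) * prim α β (b (J y)) β = prim α β (l (J y)) β := by
      rw [hθ]; exact div_mul_cancel₀ _ (Bpos _ (mJ y)).ne'
    simp only [hτ]
    rw [k]
    rcases hAJ y with e | e
    · rw [e]; ring
    · rw [e]; ring
  have τm : ∀ y, StrictMono (τ y) := fun y => strictMono_of_deriv_pos fun x => by
    rw [(dτ y x).deriv]; exact τ'0 y x
  obtain ⟨σ, hσ⟩ : ∃ σ : ℝ → ℝ → ℝ, ∀ y, σ y = fun x => pinv α β (l (J y)) (τ y x) :=
    ⟨_, fun _ => rfl⟩
  have cσ : Continuous fun q : ℝ × ℝ => σ q.1 q.2 := by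
    simp only [hσ]
    exact (pinv_cont2 h.le cl2 fun y x _ => l0 y x).comp
      ((cJ.comp continuous_fst).prodMk cτ : Continuous fun q : ℝ × ℝ => (J q.1, τ q.1 q.2))
  have cσ1 : ∀ y, Continuous (σ y) := fun y => cσ.comp (continuous_const.prodMk continuous_id)
  have mσ : ∀ y, ∀ x ∈ Icc α β, σ y x ∈ Icc α β := by
    intro y x hx
    rw [hσ]
    refine pinv_mem h.le (cl1 _) (fun x _ => l0 _ x) ?_ ?_
    · rw [← τα y]; exact (τm y).monotone hx.1
    · rw [← τβ y]; exact (τm y).monotone hx.2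
  refine ⟨J, σ, fun y x => (l (J y) (cl α β (σ y x)))⁻¹ * τ' y x, cJ, mJ, J0, J1, cσ, ?_, ?_, mσ,
    ?_, ?_, ?_, ?_, ?_⟩
  · intro y x
    simp only [hσ]
    exact (pinv_deriv h.le (cl1 _) (fun x _ => l0 _ x) (τ y x)).comp x (dτ y x)
  · intro y
    exact (Continuous.inv₀ ((cl1 _).comp ((cl_cont α β).comp (cσ1 y))) fun x => (l0 _ _).ne').mul
      (cτ' y)
  · intro y
    simp only [hσ, τα]; exact pinv_zero h.le (cl1 _) fun x _ => l0 _ x
  · intro y
    simp only [hσ, τβ]; exact pinv_prim h.le (cl1 _) (fun x _ => l0 _ x) β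
  · intro x
    have e : τ 0 x = prim α β (l 0) x := by simp only [hτ, A0]; ring
    simp only [hσ, e, J0]; exact pinv_prim h.le (cl1 _) (fun x _ => l0 _ x) x
  · intro y x hx
    have k1 := l0 (J y) (σ y x)
    simp only [cl_eq (mσ y x hx)]
    refine ⟨mul_pos (inv_pos.2 k1) (τ'0 y x), ?_⟩
    rw [mul_inv_cancel_left₀ k1.ne']
    exact τ'b y x hx
  · intro x hx
    have k1 := l0 1 (σ 1 x)
    simp only [cl_eq (mσ 1 x hx), J1]
    rw [mul_inv_cancel_left₀ k1.ne', ← prim_eq _ hβ, ← prim_eq _ hβ, ← hθ]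
    simp only [hτ', A1, J1, cl_eq hx]
    ring

/-- The data of the sliding lemma: a family of curves in the `(u, v)` plane and a path on the
sphere. -/
structure Pre (α β : ℝ) (U U' V V' : ℝ → ℝ → ℝ) (W W' : ℝ → E3) : Prop where
  cU : Continuous fun q : ℝ × ℝ => U q.1 q.2
  cU' : Continuous fun q : ℝ × ℝ => U' q.1 q.2
  cV : Continuous fun q : ℝ × ℝ => V q.1 q.2
  cV' : Continuous fun q : ℝ × ℝ => V' q.1 q.2
  cW' : Continuous W'
  dU : ∀ y x, HasDerivAt (U y) (U' y x) x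
  dV : ∀ y x, HasDerivAt (V y) (V' y x) x
  dW : ∀ x, HasDerivAt W (W' x) x
  pos : ∀ y ∈ Icc (0:ℝ) 1, ∀ x ∈ Icc α β, 0 < U' y x ∧ 0 < V' y x
  sph : ∀ x ∈ Icc α β, ‖W x‖ = 1
  e0 : ∀ y ∈ Icc (0:ℝ) 1, U y α = U 0 α ∧ V y α = V 0 α
  e1 : ∀ y ∈ Icc (0:ℝ) 1, U y β = U 0 β ∧ V y β = V 0 β

/-- The proper speed of the curve in the plane. -/
noncomputable def spd (Om : ℝ × ℝ → ℝ) (U U' V V' : ℝ → ℝ → ℝ) (y x : ℝ) : ℝ :=
  √(Om (U y x, V y x) * U' y x * V' y x)

/-- The largest angular speed. -/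
noncomputable def bud (Om r : ℝ × ℝ → ℝ) (U U' V V' : ℝ → ℝ → ℝ) (y x : ℝ) : ℝ :=
  spd Om U U' V V' y x / r (U y x, V y x)

lemma Gm_lt {Om r : ℝ × ℝ → ℝ} {u v u' v' k : ℝ} {w w' : E3} (h1 : 0 ≤ Om (u, v) * u' * v')
    (h2 : 0 < r (u, v)) (h3 : ‖w'‖ < k * (√(Om (u, v) * u' * v') / r (u, v))) :
    Gm Om r (u, v, w) (u', v', w') < -((1 - k ^ 2) * √(Om (u, v) * u' * v') ^ 2) := by
  have k3 : r (u, v) * ‖w'‖ < k * √(Om (u, v) * u' * v') := by
    have e : k * √(Om (u, v) * u' * v') = r (u, v) * (k * (√(Om (u, v) * u' * v') / r (u, v))) := by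
      field_simp
    rw [e]
    exact mul_lt_mul_of_pos_left h3 h2
  have k4 : 0 ≤ r (u, v) * ‖w'‖ := by positivity
  have k5 := mul_self_lt_mul_self k4 k3
  have k6 : √(Om (u, v) * u' * v') ^ 2 = Om (u, v) * u' * v' := Real.sq_sqrt h1
  simp only [Gm]
  nlinarith

/-- **Sliding.** -/
theorem slide {Om r : ℝ × ℝ → ℝ} (hO : Continuous Om) (hr : Continuous r) (hO0 : ∀ q, 0 < Om q)
    (hr0 : ∀ q, 0 < r q) {α β : ℝ} (h : α < β) {U U' V V' : ℝ → ℝ → ℝ} {W W' : ℝ → E3}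
    (hP : Pre α β U U' V V' W W') {η : ℝ} (hη : 0 < η)
    (h0 : ∀ x ∈ Icc α β, ‖W' x‖ + η ≤ bud Om r U U' V V' 0 x)
    (h1 : ∀ y ∈ Icc (0:ℝ) 1, ∫ x in α..β, (‖W' x‖ + η) ≤ ∫ x in α..β, bud Om r U U' V V' y x)
    {L : ℝ} (hL : √L < √(1 - ((∫ x in α..β, (‖W' x‖ + η)) /
      ∫ x in α..β, bud Om r U U' V V' 1 x) ^ 2) * ∫ x in α..β, spd Om U U' V V' 1 x) :
    ∃ H H' : ℝ → ℝ → P5, Fam Om r 0 1 H H' ∧
      (∀ x, H 0 x = (U 0 (α + (β - α) * x), V 0 (α + (β - α) * x), W (α + (β - α) * x))) ∧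
      ∀ x ∈ Icc (0:ℝ) 1, Gm Om r (H 1 x) (H' 1 x) < -L := by
  have cU := hP.cU
  have cU' := hP.cU'
  have cV := hP.cV
  have cV' := hP.cV'
  have cW' := hP.cW'
  have cW : Continuous W := continuous_iff_continuousAt.2 fun x => (hP.dW x).continuousAt
  have csp : Continuous fun q : ℝ × ℝ => spd Om U U' V V' q.1 q.2 :=
    (((hO.comp (cU.prodMk cV)).mul cU').mul cV').sqrt
  have cb : Continuous fun q : ℝ × ℝ => bud Om r U U' V V' q.1 q.2 :=
    csp.div (hr.comp (cU.prodMk cV)) fun q => (hr0 _).ne'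
  have pp : ∀ y ∈ Icc (0:ℝ) 1, ∀ x ∈ Icc α β, 0 < Om (U y x, V y x) * U' y x * V' y x :=
    fun y hy x hx => mul_pos (mul_pos (hO0 _) (hP.pos y hy x hx).1) (hP.pos y hy x hx).2
  have sp0 : ∀ y ∈ Icc (0:ℝ) 1, ∀ x ∈ Icc α β, 0 < spd Om U U' V V' y x := fun y hy x hx =>
    Real.sqrt_pos.2 (pp y hy x hx)
  have b0 : ∀ y ∈ Icc (0:ℝ) 1, ∀ x ∈ Icc α β, 0 < bud Om r U U' V V' y x := fun y hy x hx =>
    div_pos (sp0 y hy x hx) (hr0 _)
  have cl2 : Continuous fun q : ℝ × ℝ => ‖W' q.2‖ + η :=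
    (cW'.comp continuous_snd).norm.add continuous_const
  obtain ⟨J, σ, σ', cJ, mJ, J0, J1, cσ, dσ, cσ', mσ, σα, σβ, σ0, hb, hb1⟩ :=
    exists_sigma (l := fun _ x => ‖W' x‖ + η) (b := bud Om r U U' V V') h cl2 cb
      (fun _ x => add_pos_of_nonneg_of_pos (norm_nonneg _) hη) b0 h0 h1
  have cσ1 : ∀ y, Continuous (σ y) := fun y => cσ.comp (continuous_const.prodMk continuous_id)
  have ang : ∀ y, ∀ x ∈ Icc α β, ‖σ' y x • W' (σ y x)‖ < (‖W' (σ y x)‖ + η) * σ' y x := by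
    intro y x hx
    have k1 := (hb y x hx).1
    rw [norm_smul, Real.norm_eq_abs, abs_of_pos k1]
    nlinarith
  have hF : Fam Om r α β (fun y x => (U (J y) x, V (J y) x, W (σ y x)))
      (fun y x => (U' (J y) x, V' (J y) x, σ' y x • W' (σ y x))) := by
    refine ⟨?_, ?_, ?_, ?_, ?_, ?_, ?_⟩
    · have k : Continuous fun q : ℝ × ℝ => (J q.1, q.2) :=
        (cJ.comp continuous_fst).prodMk continuous_snd
      exact (cU.comp k).prodMk ((cV.comp k).prodMk (cW.comp cσ))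
    · intro y x
      exact (hP.dU _ x).prodMk ((hP.dV _ x).prodMk ((hP.dW _).scomp x (dσ y x)))
    · intro y
      have k : Continuous fun x : ℝ => (J y, x) := continuous_const.prodMk continuous_id
      exact (cU'.comp k).prodMk ((cV'.comp k).prodMk ((cσ' y).smul (cW'.comp (cσ1 y))))
    · intro y x hx
      exact hP.sph _ (mσ y x hx)
    · intro y x hx
      refine ⟨?_, (hP.pos _ (mJ y) x hx).1, (hP.pos _ (mJ y) x hx).2⟩
      have := Gm_lt (Om := Om) (r := r) (w := W (σ y x)) (k := 1) (pp _ (mJ y) x hx).le (hr0 _)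
        (by rw [one_mul]; exact (ang y x hx).trans_le (hb y x hx).2)
      simpa using this
    · intro y
      obtain ⟨k1, k2⟩ := hP.e0 _ (mJ y)
      simp only [σα, J0, k1, k2]
    · intro y
      obtain ⟨k1, k2⟩ := hP.e1 _ (mJ y)
      simp only [σβ, J0, k1, k2]
  have h11 : (1:ℝ) ∈ Icc (0:ℝ) 1 := ⟨zero_le_one, le_rfl⟩
  obtain ⟨H, H', k1, k2, k3⟩ := const_speed hO hr h hF (L := L) (by
    refine hL.trans_le ?_
    rw [← intervalIntegral.integral_const_mul]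
    have hc1 := hF.cont.comp (continuous_const.prodMk continuous_id :
      Continuous fun x : ℝ => ((1:ℝ), x))
    have hc1' := hF.cder 1
    refine intervalIntegral.integral_mono_on h.le ?_ ?_ fun x hx => ?_
    · exact (continuous_const.mul (csp.comp (continuous_const.prodMk continuous_id :
        Continuous fun x : ℝ => ((1:ℝ), x)))).intervalIntegrable _ _
    · refine Continuous.intervalIntegrable (Continuous.sqrt (Continuous.neg ?_)) _ _
      have q1 := hc1.fst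
      have q2 := hc1.snd.fst
      have q3 := q1.prodMk q2
      exact (((hO.comp q3).mul hc1'.fst).mul hc1'.snd.fst).neg.add
        (((hr.comp q3).pow 2).mul (hc1'.snd.snd.norm.pow 2))
    · generalize (∫ x in α..β, (‖W' x‖ + η)) / (∫ x in α..β, bud Om r U U' V V' 1 x) = θ at hb1 ⊢
      have q1 := Gm_lt (Om := Om) (r := r) (w := W (σ 1 x)) (k := θ) (pp _ h11 x hx).le (hr0 _)
        ((ang 1 x hx).trans_le (hb1 x hx).le)
      have q2 := sp0 1 h11 x hx
      refine Real.le_sqrt_of_sq_le ?_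
      simp only [J1]
      rcases le_total 0 (1 - θ ^ 2) with q3 | q3
      · rw [mul_pow, Real.sq_sqrt q3]
        exact (lt_neg.1 q1).le
      · rw [Real.sqrt_eq_zero'.2 q3, zero_mul]
        have := (hF.tl 1 x hx).1
        simp only [J1] at this
        nlinarith)
  refine ⟨H, H', k1, fun x => ?_, k3⟩
  rw [k2]
  simp only [J0, σ0]

end Vale.Agent.P354F
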