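import Vale.Agent.P354E.GeoDefs
import Vale.Agent.P354F.Slide

/-!
The spacetime `sp S` seen in the ambient space of `(u, v, w)`.
-/

open scoped ContDiff RealInnerProductSpace
open Set Filter Topology

namespace Vale.Agent.P354F

open Vale.Agent.P354n (R4 Spc On tgt co inv IsSmooth IsSpacetime IsFutureCurve IsIsom mink)
open Vale.Agent.P354E

/-- The embedding in the ambient space. -/
def emb (p : P2 × S2) : P5 := (p.1.1, p.1.2, p.2.1)

/-- The embedding in the chart `c`. -/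
noncomputable def amb (c : PC × Bool) (y : R4) : P5 := ((bq c y).1, (bq c y).2, stv c.2 y.2.2)

/-- The stereographic projection on the ambient space. -/
noncomputable def stiv (σ : Bool) (w : E3) : ℝ × ℝ :=
  (w 0 / (1 + sg σ * w 2), w 1 / (1 + sg σ * w 2))

/-- The chart `c` on the ambient space. -/
noncomputable def coA (c : PC × Bool) (z : P5) : R4 :=
  ((c.1.ξ (z.1, z.2.1)).1, (c.1.ξ (z.1, z.2.1)).2, stiv c.2 z.2.2)

/-- The bilinear form on the ambient space. -/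
noncomputable def GB (S : Fld) (p a b : P5) : ℝ :=
  -(S.O (p.1, p.2.1) / 2) * (a.1 * b.2.1 + a.2.1 * b.1) + S.r (p.1, p.2.1) ^ 2 * ⟪a.2.2, b.2.2⟫

lemma amb_eq (S : Fld) (c : PC × Bool) (y : R4) : amb c y = emb (inv (M := sp S) c y) := rfl

lemma coA_emb (S : Fld) (c : PC × Bool) (p : P2 × S2) : coA c (emb p) = co (M := sp S) c p := rfl

lemma GB_self (S : Fld) (p a : P5) : GB S p a a = Gm S.O S.r p a := by
  simp only [GB, Gm, real_inner_self_eq_norm_sq]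
  ring

lemma GB_X (S : Fld) (p a : P5) : GB S p a (1, 1, 0) = -(S.O (p.1, p.2.1) / 2) * (a.1 + a.2.1) := by
  simp only [GB, inner_zero_right]
  ring

lemma emb_inducing : IsInducing emb := by
  have h1 : IsInducing (Prod.map id Subtype.val : P2 × S2 → P2 × E3) :=
    IsInducing.id.prodMap IsInducing.subtypeVal
  exact (Homeomorph.prodAssoc ℝ ℝ E3).isInducing.comp h1

lemma emb_inj : Function.Injective emb := by
  intro p q h
  simp only [emb, Prod.mk.injEq] at h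
  exact Prod.ext (Prod.ext h.1 h.2.1) (Subtype.ext h.2.2)

lemma emb_norm (p : P2 × S2) : ‖(emb p).2.2‖ = 1 := mem_sphere_zero_iff_norm.1 p.2.2

/-- The derivative of the stereographic parametrisation. -/
noncomputable def dst (σ : Bool) (y a : ℝ × ℝ) : E3 :=
  !₂[(2 * a.1 * (1 + y.1 ^ 2 + y.2 ^ 2) - 2 * y.1 * (2 * y.1 * a.1 + 2 * y.2 * a.2)) /
      (1 + y.1 ^ 2 + y.2 ^ 2) ^ 2,
    (2 * a.2 * (1 + y.1 ^ 2 + y.2 ^ 2) - 2 * y.2 * (2 * y.1 * a.1 + 2 * y.2 * a.2)) /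
      (1 + y.1 ^ 2 + y.2 ^ 2) ^ 2,
    sg σ * (-2 * (2 * y.1 * a.1 + 2 * y.2 * a.2) / (1 + y.1 ^ 2 + y.2 ^ 2) ^ 2)]

lemma stv_diff (σ : Bool) (y : ℝ × ℝ) : HasFDerivAt (stv σ) (fderiv ℝ (stv σ) y) y :=
  (((stv_smooth σ).differentiable (by simp)) y).hasFDerivAt

lemma fderiv_stv (σ : Bool) (y a : ℝ × ℝ) : fderiv ℝ (stv σ) y a = dst σ y a := by
  have h1 : HasDerivAt (fun t : ℝ => y.1 + t * a.1) a.1 0 := by
    simpa using ((hasDerivAt_id (0:ℝ)).mul_const a.1).const_add y.1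
  have h2 : HasDerivAt (fun t : ℝ => y.2 + t * a.2) a.2 0 := by
    simpa using ((hasDerivAt_id (0:ℝ)).mul_const a.2).const_add y.2
  have h3 : HasDerivAt (fun t : ℝ => ((y.1 + t * a.1, y.2 + t * a.2) : ℝ × ℝ)) a 0 := h1.prodMk h2
  have h4 : HasDerivAt (fun t : ℝ => stv σ (y.1 + t * a.1, y.2 + t * a.2)) (fderiv ℝ (stv σ) y a) 0 :=
    HasFDerivAt.comp_hasDerivAt_of_eq (0:ℝ) (stv_diff σ y) h3 (by simp)
  have h5 : ∀ i, HasDerivAt (fun t : ℝ => stv σ (y.1 + t * a.1, y.2 + t * a.2) i)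
      (fderiv ℝ (stv σ) y a i) 0 := fun i =>
    (EuclideanSpace.proj (𝕜 := ℝ) i).hasFDerivAt.comp_hasDerivAt (0:ℝ) h4
  have hD : HasDerivAt (fun t : ℝ => 1 + (y.1 + t * a.1) ^ 2 + (y.2 + t * a.2) ^ 2)
      (2 * y.1 * a.1 + 2 * y.2 * a.2) 0 := by
    simpa using ((h1.fun_pow 2).const_add 1).fun_add (h2.fun_pow 2)
  have hN : HasDerivAt (fun t : ℝ => 1 - (y.1 + t * a.1) ^ 2 - (y.2 + t * a.2) ^ 2)
      (-(2 * y.1 * a.1) - 2 * y.2 * a.2) 0 := by
    simpa using ((h1.fun_pow 2).const_sub 1).fun_sub (h2.fun_pow 2)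
  have h0 : (1 + (y.1 + 0 * a.1) ^ 2 + (y.2 + 0 * a.2) ^ 2) ≠ 0 := by positivity
  have h0' : (1 + y.1 ^ 2 + y.2 ^ 2) ≠ 0 := by positivity
  ext i
  fin_cases i
  · refine ((h5 0).unique ((h1.const_mul 2).fun_div hD h0)).trans ?_
    simp [dst]
  · refine ((h5 1).unique ((h2.const_mul 2).fun_div hD h0)).trans ?_
    simp [dst]
  · refine ((h5 2).unique ((hN.fun_div hD h0).const_mul (sg σ))).trans ?_
    simp only [zero_mul, add_zero]
    show _ = sg σ * _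
    congr 1
    field_simp
    ring

lemma dst_inner (σ : Bool) (y a b : ℝ × ℝ) :
    ⟪dst σ y a, dst σ y b⟫ = 4 / (1 + y.1 ^ 2 + y.2 ^ 2) ^ 2 * (a.1 * b.1 + a.2 * b.2) := by
  have h0' : (1 + y.1 ^ 2 + y.2 ^ 2) ≠ 0 := by positivity
  rw [EuclideanSpace.inner_eq_star_dotProduct, dotProduct, Fin.sum_univ_three]
  cases σ <;> simp [dst, sg] <;> field_simp <;> ring

lemma p2_diff (y : R4) : HasFDerivAt p2 ((ContinuousLinearMap.fst ℝ ℝ (ℝ × ℝ × ℝ)).prod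
    ((ContinuousLinearMap.fst ℝ ℝ (ℝ × ℝ)).comp (ContinuousLinearMap.snd ℝ ℝ (ℝ × ℝ × ℝ)))) y :=
  ((ContinuousLinearMap.fst ℝ ℝ (ℝ × ℝ × ℝ)).prod
    ((ContinuousLinearMap.fst ℝ ℝ (ℝ × ℝ)).comp (ContinuousLinearMap.snd ℝ ℝ (ℝ × ℝ × ℝ)))).hasFDerivAt

lemma p2_smooth : ContDiff ℝ ∞ p2 := by unfold p2; fun_prop

lemma PC.smAt (c : PC) {q : P2} (h : q ∈ c.ξ.source) : ContDiffAt ℝ ∞ c.ξ q :=
  c.sm.contDiffAt (c.ξ.open_source.mem_nhds h)

lemma PC.smAt' (c : PC) {q : P2} (h : q ∈ c.ξ.target) : ContDiffAt ℝ ∞ c.ξ.symm q :=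
  c.sm'.contDiffAt (c.ξ.open_target.mem_nhds h)

lemma PC.left (c : PC) {q : P2} (h : q ∈ c.ξ.source) (a : P2) :
    fderiv ℝ c.ξ.symm (c.ξ q) (fderiv ℝ c.ξ q a) = a := by
  have h1 := ((PC.smAt c h).differentiableAt (by simp)).hasFDerivAt
  have h2 := ((PC.smAt' c (c.ξ.map_source h)).differentiableAt (by simp)).hasFDerivAt
  have h3 : HasFDerivAt (c.ξ.symm ∘ c.ξ) (ContinuousLinearMap.id ℝ P2) q :=
    (hasFDerivAt_id q).congr_of_eventuallyEq (c.ξ.eventually_left_inverse h)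
  exact DFunLike.congr_fun ((h2.comp q h1).unique h3) a

lemma PC.right (c : PC) {q : P2} (h : q ∈ c.ξ.target) (a : P2) :
    fderiv ℝ c.ξ (c.ξ.symm q) (fderiv ℝ c.ξ.symm q a) = a := by
  have h1 := ((PC.smAt' c h).differentiableAt (by simp)).hasFDerivAt
  have h2 := ((PC.smAt c (c.ξ.map_target h)).differentiableAt (by simp)).hasFDerivAt
  have h3 : HasFDerivAt (c.ξ ∘ c.ξ.symm) (ContinuousLinearMap.id ℝ P2) q :=
    (hasFDerivAt_id q).congr_of_eventuallyEq (c.ξ.eventually_right_inverse h)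
  exact DFunLike.congr_fun ((h2.comp q h1).unique h3) a

section
variable {c : PC × Bool} {y : R4}

lemma bq_smooth (h : p2 y ∈ c.1.ξ.target) : ContDiffAt ℝ ∞ (bq c) y :=
  (PC.smAt' c.1 h).comp y p2_smooth.contDiffAt

lemma amb_smooth (h : p2 y ∈ c.1.ξ.target) : ContDiffAt ℝ ∞ (amb c) y :=
  (bq_smooth h).fst.prodMk ((bq_smooth h).snd.prodMk
    ((stv_smooth c.2).contDiffAt.comp y (by fun_prop)))

lemma amb_diff (h : p2 y ∈ c.1.ξ.target) : HasFDerivAt (amb c) (fderiv ℝ (amb c) y) y :=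
  ((amb_smooth h).differentiableAt (by simp)).hasFDerivAt

lemma amb_fderiv (h : p2 y ∈ c.1.ξ.target) (a : R4) :
    fderiv ℝ (amb c) y a = ((bv c y a).1, (bv c y a).2, dst c.2 y.2.2 a.2.2) := by
  have h1 := (((PC.smAt' c.1 h).differentiableAt (by simp)).hasFDerivAt).comp y (p2_diff y)
  have h2 := (stv_diff c.2 y.2.2).comp y (hasFDerivAt_snd.comp y hasFDerivAt_snd)
  have h3 : HasFDerivAt (amb c) _ y := h1.fst.prodMk (h1.snd.prodMk h2)
  rw [h3.fderiv, ← fderiv_stv]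
  rfl

lemma gS_eq (S : Fld) (h : p2 y ∈ c.1.ξ.target) (a b : R4) :
    gS S c y a b = GB S (amb c y) (fderiv ℝ (amb c) y a) (fderiv ℝ (amb c) y b) := by
  rw [amb_fderiv h, amb_fderiv h]
  simp only [gS, GB, amb, dst_inner, cf]
  ring

lemma bv_X (h : p2 y ∈ c.1.ξ.target) : bv c y (XS c y) = (1, 1) := by
  have := PC.left c.1 (c.1.ξ.map_target h) (1, 1)
  rw [c.1.ξ.right_inv h] at this
  exact this

lemma amb_X (h : p2 y ∈ c.1.ξ.target) : fderiv ℝ (amb c) y (XS c y) = (1, 1, 0) := by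
  rw [amb_fderiv h, bv_X h, ← fderiv_stv]
  exact Prod.ext rfl (Prod.ext rfl (map_zero _))

end

lemma stiv_smooth (σ : Bool) {w : E3} (h : 1 + sg σ * w 2 ≠ 0) : ContDiffAt ℝ ∞ (stiv σ) w := by
  have k : ∀ i, ContDiff ℝ ∞ fun w : E3 => w i := fun i => (EuclideanSpace.proj (𝕜 := ℝ) i).contDiff
  have k1 : ContDiff ℝ ∞ fun w : E3 => 1 + sg σ * w 2 := contDiff_const.add (contDiff_const.mul (k 2))
  exact ((k 0).contDiffAt.div k1.contDiffAt h).prodMk ((k 1).contDiffAt.div k1.contDiffAt h)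

lemma coA_smooth {S : Fld} {c : PC × Bool} {p : P2 × S2} (h : On (M := sp S) c p) :
    ContDiffAt ℝ ∞ (coA c) (emb p) := by
  have h1 : ContDiffAt ℝ ∞ (fun z : P5 => c.1.ξ (z.1, z.2.1)) (emb p) :=
    ContDiffAt.comp (g := c.1.ξ) (f := fun z : P5 => (z.1, z.2.1)) (emb p) (PC.smAt c.1 h.1)
      (by fun_prop)
  have h2 : ContDiffAt ℝ ∞ (fun z : P5 => stiv c.2 z.2.2) (emb p) :=
    ContDiffAt.comp (g := stiv c.2) (f := fun z : P5 => z.2.2) (emb p) (stiv_smooth c.2 h.2)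
      (by fun_prop)
  exact h1.fst.prodMk (h1.snd.prodMk h2)

lemma amb_co {S : Fld} {c : PC × Bool} {p : P2 × S2} (h : On (M := sp S) c p) :
    amb c (co (M := sp S) c p) = emb p :=
  congrArg emb ((chart c).left_inv h)

lemma co_tgt {S : Fld} {c : PC × Bool} {p : P2 × S2} (h : On (M := sp S) c p) :
    p2 (co (M := sp S) c p) ∈ c.1.ξ.target := (chart c).map_source h

/-- The transition maps. -/
lemma trans_map {S : Fld} {c c' : PC × Bool} {y : R4} (h : p2 y ∈ c.1.ξ.target)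
    (h' : On (M := sp S) c' (inv (M := sp S) c y)) {T : R4 → R4}
    (hT : T = fun y => co (M := sp S) c' (inv (M := sp S) c y)) :
    ContDiffAt ℝ ∞ T y ∧ p2 (T y) ∈ c'.1.ξ.target ∧ amb c' (T y) = amb c y ∧
      ∀ a, fderiv ℝ (amb c') (T y) (lineDeriv ℝ T y a) = fderiv ℝ (amb c) y a := by
  have h1 : ContDiffAt ℝ ∞ T y := by
    rw [hT]
    exact ContDiffAt.comp (g := coA c') (f := amb c) y (coA_smooth h') (amb_smooth h)
  have h2 : p2 (T y) ∈ c'.1.ξ.target := by rw [hT]; exact co_tgt h'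
  have h3 : (amb c' ∘ T) =ᶠ[𝓝 y] amb c := by
    have k : ContinuousAt (chart c).symm y := (chart c).continuousAt_symm h
    filter_upwards [k.eventually ((chart c').open_source.mem_nhds h')] with z hz
    rw [hT]
    exact amb_co (S := S) hz
  refine ⟨h1, h2, h3.self_of_nhds, fun a => ?_⟩
  have h4 := h1.differentiableAt (by simp)
  rw [h4.lineDeriv_eq_fderiv, ← h3.fderiv_eq, ((amb_diff h2).comp y h4.hasFDerivAt).fderiv]
  rfl

end Vale.Agent.P354F
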