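import Vale.Agent.P354F.Slide

/-!
Curves that can be deformed to long curves, in the coordinates `(u, v, w)`.
-/

open Set Filter Topology MeasureTheory

namespace Vale.Agent.P354F

/-- A future timelike curve on `(0, 1)` with velocity `a'`. -/
structure Cur (Om r : ℝ × ℝ → ℝ) (a a' : ℝ → P5) : Prop where
  der : ∀ t ∈ Ioo (0:ℝ) 1, HasDerivAt a (a' t) t
  cder : ContinuousOn a' (Ioo 0 1)
  sph : ∀ t ∈ Ioo (0:ℝ) 1, ‖(a t).2.2‖ = 1
  tl : ∀ t ∈ Ioo (0:ℝ) 1, Gm Om r (a t) (a' t) < 0 ∧ 0 < (a' t).1 ∧ 0 < (a' t).2.1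

/-- The curve can be deformed to long curves. -/
def FarA (Om r : ℝ × ℝ → ℝ) (a : ℝ → P5) : Prop :=
  ∀ b < 1, ∃ s ∈ Ioo b 1, 0 < s ∧ ∀ L : ℝ, ∃ t ∈ Ioo s 1, ∃ H H' : ℝ → ℝ → P5, Fam Om r 0 1 H H' ∧
    (∀ x ∈ Icc (0:ℝ) 1, H 0 x = a (s + (t - s) * x)) ∧
    ∀ x ∈ Icc (0:ℝ) 1, Gm Om r (H 1 x) (H' 1 x) < -L

/-- The largest angular speed along a curve. -/
noncomputable def bd (Om r : ℝ × ℝ → ℝ) (a a' : ℝ → P5) (t : ℝ) : ℝ :=
  √(Om ((a t).1, (a t).2.1) * (a' t).1 * (a' t).2.1) / r ((a t).1, (a t).2.1)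

/-- The angular length. -/
noncomputable def ang (a' : ℝ → P5) (s t : ℝ) : ℝ := ∫ x in s..t, ‖(a' x).2.2‖

lemma sub_Ioo {s t : ℝ} (hs : 0 < s) (ht : t < 1) : Icc s t ⊆ Ioo (0:ℝ) 1 :=
  fun _ hx => ⟨hs.trans_le hx.1, hx.2.trans_lt ht⟩

section
variable {Om r : ℝ × ℝ → ℝ} {a a' : ℝ → P5}

lemma Cur.cont (h : Cur Om r a a') : ContinuousOn a (Ioo 0 1) :=
  fun t ht => (h.der t ht).continuousAt.continuousWithinAt

lemma Cur.du (h : Cur Om r a a') {t : ℝ} (ht : t ∈ Ioo (0:ℝ) 1) :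
    HasDerivAt (fun t => (a t).1) (a' t).1 t := (h.der t ht).fst

lemma Cur.dv (h : Cur Om r a a') {t : ℝ} (ht : t ∈ Ioo (0:ℝ) 1) :
    HasDerivAt (fun t => (a t).2.1) (a' t).2.1 t := (h.der t ht).snd.fst

lemma Cur.dw (h : Cur Om r a a') {t : ℝ} (ht : t ∈ Ioo (0:ℝ) 1) :
    HasDerivAt (fun t => (a t).2.2) (a' t).2.2 t := (h.der t ht).snd.snd

lemma Cur.umono (h : Cur Om r a a') : StrictMonoOn (fun t => (a t).1) (Ioo 0 1) := by
  refine strictMonoOn_of_deriv_pos (convex_Ioo _ _) h.cont.fst fun t ht => ?_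
  rw [interior_Ioo] at ht
  rw [(h.du ht).deriv]
  exact (h.tl t ht).2.1

lemma Cur.vmono (h : Cur Om r a a') : StrictMonoOn (fun t => (a t).2.1) (Ioo 0 1) := by
  refine strictMonoOn_of_deriv_pos (convex_Ioo _ _) h.cont.snd.fst fun t ht => ?_
  rw [interior_Ioo] at ht
  rw [(h.dv ht).deriv]
  exact (h.tl t ht).2.2

lemma Cur.extend (h : Cur Om r a a') {s t : ℝ} (hs : 0 < s) (hst : s ≤ t) (ht : t < 1) :
    ∃ c c' : ℝ → P5, (∀ x, HasDerivAt c (c' x) x) ∧ Continuous c' ∧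
      ∀ x ∈ Icc s t, c x = a x ∧ c' x = a' x := by
  have k : Continuous fun x => a' (cl s t x) :=
    h.cder.comp_continuous (cl_cont s t) fun x => sub_Ioo hs ht (cl_mem hst x)
  refine ⟨fun x => a s + ∫ z in s..x, a' (cl s t z), fun x => a' (cl s t x),
    fun x => ((k.integral_hasStrictDerivAt s x).hasDerivAt).const_add _, k, fun x hx => ⟨?_, ?_⟩⟩
  · have e1 : ∫ z in s..x, a' (cl s t z) = ∫ z in s..x, a' z := by
      refine intervalIntegral.integral_congr fun z hz => ?_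
      rw [uIcc_of_le hx.1] at hz
      show a' (cl s t z) = a' z
      rw [cl_eq ⟨hz.1, hz.2.trans hx.2⟩]
    have hsub : uIcc s x ⊆ Ioo (0:ℝ) 1 := by
      rw [uIcc_of_le hx.1]; exact sub_Ioo hs (hx.2.trans_lt ht)
    have e2 : ∫ z in s..x, a' z = a x - a s :=
      intervalIntegral.integral_eq_sub_of_hasDerivAt (fun z hz => h.der z (hsub hz))
        ((h.cder.mono hsub).intervalIntegrable)
    simp only [e1, e2]
    abel
  · simp only [cl_eq hx]

lemma Cur.slack (_hO0 : ∀ q, 0 < Om q) (hr0 : ∀ q, 0 < r q) (h : Cur Om r a a') {t : ℝ}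
    (ht : t ∈ Ioo (0:ℝ) 1) : ‖(a' t).2.2‖ < bd Om r a a' t := by
  obtain ⟨k1, k2, k3⟩ := h.tl t ht
  have k4 := hr0 ((a t).1, (a t).2.1)
  rw [bd, lt_div_iff₀ k4]
  refine Real.lt_sqrt_of_sq_lt ?_
  simp only [Gm] at k1
  nlinarith

lemma Cur.cbd (hO : Continuous Om) (hr : Continuous r) (hr0 : ∀ q, 0 < r q) (h : Cur Om r a a') :
    ContinuousOn (bd Om r a a') (Ioo 0 1) := by
  have k1 : ContinuousOn (fun t => ((a t).1, (a t).2.1)) (Ioo 0 1) :=
    h.cont.fst.prodMk h.cont.snd.fst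
  exact ((((hO.comp_continuousOn k1).mul h.cder.fst).mul h.cder.snd.fst).sqrt).div
    (hr.comp_continuousOn k1) fun t _ => (hr0 _).ne'

lemma Cur.cang (h : Cur Om r a a') : ContinuousOn (fun t => ‖(a' t).2.2‖) (Ioo 0 1) :=
  h.cder.snd.snd.norm

lemma int_of {f : ℝ → ℝ} (hf : ContinuousOn f (Ioo 0 1)) {s t : ℝ} (hs : 0 < s) (hst : s ≤ t)
    (ht : t < 1) : IntervalIntegrable f volume s t :=
  (hf.mono (by rw [uIcc_of_le hst]; exact sub_Ioo hs ht)).intervalIntegrable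

lemma Cur.ang_add (h : Cur Om r a a') {s t w : ℝ} (hs : 0 < s) (hst : s ≤ t) (htw : t ≤ w)
    (hw : w < 1) : ang a' s w = ang a' s t + ang a' t w :=
  (intervalIntegral.integral_add_adjacent_intervals (int_of h.cang hs hst (htw.trans_lt hw))
    (int_of h.cang (hs.trans_le hst) htw hw)).symm

lemma ang_nonneg (a' : ℝ → P5) {s t : ℝ} (hst : s ≤ t) : 0 ≤ ang a' s t :=
  intervalIntegral.integral_nonneg hst fun _ _ => norm_nonneg _

/-- a positive amount of slack after `s` -/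
lemma Cur.exists_slack (hO : Continuous Om) (hr : Continuous r) (hO0 : ∀ q, 0 < Om q)
    (hr0 : ∀ q, 0 < r q) (h : Cur Om r a a') {s t1 : ℝ} (hs : 0 < s) (h1 : s < t1) (h2 : t1 < 1) :
    ∃ δ > 0, ∀ t ∈ Ico t1 1, ang a' s t + δ ≤ ∫ x in s..t, bd Om r a a' x := by
  have cf : ContinuousOn (fun x => bd Om r a a' x - ‖(a' x).2.2‖) (Ioo 0 1) :=
    (h.cbd hO hr hr0).sub h.cang
  refine ⟨∫ x in s..t1, (bd Om r a a' x - ‖(a' x).2.2‖), ?_, fun t ht => ?_⟩
  · refine intervalIntegral.intervalIntegral_pos_of_pos_on (int_of cf hs h1.le h2) (fun x hx => ?_) h1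
    have := h.slack hO0 hr0 (t := x) ⟨hs.trans hx.1, hx.2.trans h2⟩
    linarith
  · have k1 := intervalIntegral.integral_add_adjacent_intervals (int_of cf hs h1.le h2)
      (int_of cf (hs.trans h1) ht.1 ht.2)
    have k2 : 0 ≤ ∫ x in t1..t, (bd Om r a a' x - ‖(a' x).2.2‖) := by
      refine intervalIntegral.integral_nonneg ht.1 fun x hx => ?_
      have := h.slack hO0 hr0 (t := x) ⟨(hs.trans h1).trans_le hx.1, hx.2.trans_lt ht.2⟩
      linarith
    have k3 := intervalIntegral.integral_sub (int_of (h.cbd hO hr hr0) hs (h1.le.trans ht.1) ht.2)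
      (int_of h.cang hs (h1.le.trans ht.1) ht.2)
    simp only [ang]
    linarith

/-- a positive lower bound of the slack on a compact interval -/
lemma Cur.exists_eta (hO : Continuous Om) (hr : Continuous r) (hO0 : ∀ q, 0 < Om q)
    (hr0 : ∀ q, 0 < r q) (h : Cur Om r a a') {s t : ℝ} (hs : 0 < s) (h1 : s < t) (h2 : t < 1)
    {δ : ℝ} (hδ : 0 < δ) :
    ∃ η > 0, η ≤ δ ∧ ∀ x ∈ Icc s t, ‖(a' x).2.2‖ + η ≤ bd Om r a a' x := by
  have cf : ContinuousOn (fun x => bd Om r a a' x - ‖(a' x).2.2‖) (Icc s t) :=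
    ((h.cbd hO hr hr0).sub h.cang).mono (sub_Ioo hs h2)
  obtain ⟨x0, hx0, hm⟩ := isCompact_Icc.exists_isMinOn (nonempty_Icc.2 h1.le) cf
  have k := h.slack hO0 hr0 (sub_Ioo hs h2 hx0)
  refine ⟨min δ (bd Om r a a' x0 - ‖(a' x0).2.2‖), lt_min hδ (by linarith), min_le_left _ _,
    fun x hx => ?_⟩
  have k1 : bd Om r a a' x0 - ‖(a' x0).2.2‖ ≤ bd Om r a a' x - ‖(a' x).2.2‖ := hm hx
  have k2 := min_le_right δ (bd Om r a a' x0 - ‖(a' x0).2.2‖)
  linarith

end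

lemma exists_start {b : ℝ} (hb : b < 1) : ∃ s ∈ Ioo b 1, 0 < s := by
  refine ⟨(max b 0 + 1) / 2, ⟨?_, ?_⟩, ?_⟩
  · have := le_max_left b 0; linarith
  · have := max_lt hb zero_lt_one; linarith
  · have := le_max_right b 0; linarith

lemma sqrt_lower {l B d : ℝ} (hl : 0 ≤ l) (hB : 0 < B) (hd0 : 0 ≤ d) (hd : l ≤ (1 - d) * B) :
    √d ≤ √(1 - (l / B) ^ 2) := by
  refine Real.sqrt_le_sqrt ?_
  have k1 : l / B ≤ 1 - d := by rwa [div_le_iff₀ hB]
  have k2 : 0 ≤ l / B := div_nonneg hl hB.le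
  nlinarith

lemma int_congr {f g : ℝ → ℝ} {s t : ℝ} (hst : s ≤ t) (h : ∀ x ∈ Icc s t, f x = g x) :
    ∫ x in s..t, f x = ∫ x in s..t, g x :=
  intervalIntegral.integral_congr fun x hx => h x (by rwa [uIcc_of_le hst] at hx)

lemma aff_mem {s t x : ℝ} (hst : s ≤ t) (hx : x ∈ Icc (0:ℝ) 1) : s + (t - s) * x ∈ Icc s t :=
  ⟨by nlinarith [hx.1], by nlinarith [hx.2]⟩

/-- **Infinite angular length.** -/
theorem far_of_infinite {Om r : ℝ × ℝ → ℝ} (hO : Continuous Om) (hr : Continuous r)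
    (hO0 : ∀ q, 0 < Om q) (hr0 : ∀ q, 0 < r q) {a a' : ℝ → P5} (h : Cur Om r a a') {r0 : ℝ}
    (h0 : 0 < r0) {t0 : ℝ} (ht0 : t0 < 1) (h1 : ∀ t ∈ Ioo t0 1, r0 ≤ r ((a t).1, (a t).2.1))
    (hinf : ∀ M : ℝ, ∃ t ∈ Ioo (1 / 2 : ℝ) 1, M ≤ ang a' (1 / 2) t) : FarA Om r a := by
  intro b hb
  obtain ⟨s, hs, hs0⟩ := exists_start (b := max (max b t0) (1 / 2))
    (max_lt (max_lt hb ht0) (by norm_num))
  have hs1 : 1 / 2 < s := (le_max_right _ _).trans_lt hs.1
  have hs2 : t0 < s := ((le_max_right _ _).trans (le_max_left _ _)).trans_lt hs.1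
  refine ⟨s, ⟨((le_max_left _ _).trans (le_max_left _ _)).trans_lt hs.1, hs.2⟩, hs0, fun L => ?_⟩
  obtain ⟨δ, hδ, hsl⟩ := h.exists_slack hO hr hO0 hr0 (t1 := (s + 1) / 2) hs0 (by linarith [hs.2])
    (by linarith [hs.2])
  -- the choice of `t`
  obtain ⟨t, ht, hM⟩ : ∃ t ∈ Ico ((s + 1) / 2) 1, 2 * (|L| + 1) / (δ * r0 ^ 2) ≤ ang a' s t := by
    obtain ⟨t, ht, hM⟩ := hinf (ang a' (1 / 2) s + 2 * (|L| + 1) / (δ * r0 ^ 2))
    have hp : 0 < 2 * (|L| + 1) / (δ * r0 ^ 2) := by positivity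
    have hst : s ≤ t := by
      by_contra hc
      rw [not_le] at hc
      have k1 := h.ang_add (s := 1 / 2) (by norm_num) ht.1.le hc.le hs.2
      have k2 := ang_nonneg a' hc.le
      linarith
    have k1 := h.ang_add (s := 1 / 2) (by norm_num) hs1.le hst ht.2
    refine ⟨max t ((s + 1) / 2), ⟨le_max_right _ _, max_lt ht.2 (by linarith [hs.2])⟩, ?_⟩
    have k2 := h.ang_add hs0 hst (le_max_left t ((s + 1) / 2)) (max_lt ht.2 (by linarith [hs.2]))
    have k3 := ang_nonneg a' (le_max_left t ((s + 1) / 2))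
    linarith
  have hst : s < t := by linarith [ht.1, hs.2]
  refine ⟨t, ⟨hst, ht.2⟩, ?_⟩
  obtain ⟨η, hη, hηδ, hη1⟩ := h.exists_eta hO hr hO0 hr0 hs0 hst ht.2 (δ := δ / 2) (by positivity)
  obtain ⟨c, c', dc, cc', hc⟩ := h.extend hs0 hst.le ht.2
  have cc : Continuous c := continuous_iff_continuousAt.2 fun x => (dc x).continuousAt
  have hP : Pre s t (fun _ x => (c x).1) (fun _ x => (c' x).1) (fun _ x => (c x).2.1)
      (fun _ x => (c' x).2.1) (fun x => (c x).2.2) (fun x => (c' x).2.2) := by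
    refine ⟨by fun_prop, by fun_prop, by fun_prop, by fun_prop, by fun_prop,
      fun _ x => (dc x).fst, fun _ x => (dc x).snd.fst, fun x => (dc x).snd.snd, ?_, ?_,
      fun _ _ => ⟨rfl, rfl⟩, fun _ _ => ⟨rfl, rfl⟩⟩
    · intro y _ x hx
      rw [(hc x hx).2]
      exact (h.tl x (sub_Ioo hs0 ht.2 hx)).2
    · intro x hx
      rw [(hc x hx).1]
      exact h.sph x (sub_Ioo hs0 ht.2 hx)
  have eb : ∀ y, ∀ x ∈ Icc s t, bud Om r (fun _ x => (c x).1) (fun _ x => (c' x).1)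
      (fun _ x => (c x).2.1) (fun _ x => (c' x).2.1) y x = bd Om r a a' x := by
    intro y x hx
    simp only [bud, spd, bd, (hc x hx).1, (hc x hx).2]
  have el : ∫ x in s..t, (‖(c' x).2.2‖ + η) = ang a' s t + η * (t - s) := by
    rw [intervalIntegral.integral_add (by apply Continuous.intervalIntegrable; fun_prop)
      (by simp), intervalIntegral.integral_const, smul_eq_mul, mul_comm, ang]
    congr 1
    exact int_congr hst.le fun x hx => by rw [(hc x hx).2]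
  have hB := hsl t ht
  have hl0 := ang_nonneg a' hst.le
  have hηt : η * (t - s) ≤ δ / 2 := by nlinarith [ht.2]
  have hηt0 : 0 ≤ η * (t - s) := by nlinarith
  obtain ⟨H, H', k1, k2, k3⟩ := slide hO hr hO0 hr0 hst hP hη
    (fun x hx => by rw [eb 0 x hx, (hc x hx).2]; exact hη1 x hx)
    (fun y _ => by rw [int_congr hst.le (eb y), el]; linarith) (L := L) (by
      rw [int_congr hst.le (eb 1), el]
      obtain ⟨B, hBe⟩ : ∃ B, B = ∫ x in s..t, bd Om r a a' x := ⟨_, rfl⟩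
      have q0 : r0 * B ≤ ∫ x in s..t, spd Om (fun _ x => (c x).1) (fun _ x => (c' x).1)
          (fun _ x => (c x).2.1) (fun _ x => (c' x).2.1) 1 x := by
        rw [hBe, ← intervalIntegral.integral_const_mul]
        refine intervalIntegral.integral_mono_on hst.le
          ((int_of (h.cbd hO hr hr0) hs0 hst.le ht.2).const_mul _) ?_ fun x hx => ?_
        · apply Continuous.intervalIntegrable
          show Continuous fun x => √(Om ((c x).1, (c x).2.1) * (c' x).1 * (c' x).2.1)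
          fun_prop
        · have q1 := h1 x ⟨hs2.trans_le hx.1, hx.2.trans_lt ht.2⟩
          have q2 := hr0 ((a x).1, (a x).2.1)
          simp only [spd, bd, (hc x hx).1, (hc x hx).2]
          rw [← mul_div_assoc, div_le_iff₀ q2, mul_comm r0]
          exact mul_le_mul_of_nonneg_left q1 (Real.sqrt_nonneg _)
      rw [← hBe] at hB ⊢
      have B0 : 0 < B := by linarith
      have q1 := sqrt_lower (l := ang a' s t + η * (t - s)) (d := δ / 2 / B) (by linarith) B0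
        (by positivity) (by rw [sub_mul, div_mul_cancel₀ _ B0.ne']; linarith)
      have q2 : √L < √(δ / 2 / B) * (r0 * B) := by
        rw [Real.sqrt_lt' (by positivity), mul_pow, Real.sq_sqrt (by positivity)]
        have q3 : δ / 2 / B * (r0 * B) ^ 2 = δ * r0 ^ 2 / 2 * B := by field_simp
        have q4 : 2 * (|L| + 1) / (δ * r0 ^ 2) ≤ B := by linarith
        rw [div_le_iff₀ (by positivity)] at q4
        have q5 := le_abs_self L
        rw [q3]
        nlinarith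
      exact q2.trans_le (mul_le_mul q1 q0 (by positivity) (Real.sqrt_nonneg _)))
  refine ⟨H, H', k1, fun x hx => ?_, k3⟩
  rw [k2, ← (hc _ (aff_mem hst.le hx)).1]

lemma chi_deriv (τ x : ℝ) : HasDerivAt (fun x => max 0 (x - τ) ^ 2) (2 * max 0 (x - τ)) x := by
  rcases lt_trichotomy x τ with h | h | h
  · rw [max_eq_left (by linarith), mul_zero]
    refine (hasDerivAt_const x (0:ℝ)).congr_of_eventuallyEq ?_
    filter_upwards [Iio_mem_nhds h] with z hz
    rw [max_eq_left (by linarith [mem_Iio.1 hz])]; norm_num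
  · subst h
    rw [sub_self, max_self, mul_zero, hasDerivAt_iff_isLittleO_nhds_zero]
    simp only [add_sub_cancel_left, sub_self, max_self, smul_zero, sub_zero, ne_eq,
      OfNat.ofNat_ne_zero, not_false_eq_true, zero_pow]
    refine Asymptotics.IsBigO.trans_isLittleO (g := fun z : ℝ => z ^ 2) ?_
      (Asymptotics.isLittleO_pow_id one_lt_two)
    refine Asymptotics.IsBigO.of_bound' (Eventually.of_forall fun z => ?_)
    rw [Real.norm_eq_abs, Real.norm_eq_abs, abs_of_nonneg (sq_nonneg _), abs_of_nonneg (sq_nonneg _)]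
    rcases le_total 0 z with hz | hz
    · rw [max_eq_right hz]
    · rw [max_eq_left hz]; nlinarith
  · rw [max_eq_right (by linarith)]
    have k : HasDerivAt (fun z => (z - τ) ^ 2) (2 * (x - τ)) x := by
      have := ((hasDerivAt_id x).sub_const τ).fun_pow 2
      simpa using this
    refine k.congr_of_eventuallyEq ?_
    filter_upwards [Ioi_mem_nhds h] with z hz
    rw [max_eq_right (by linarith [mem_Ioi.1 hz])]

/-- the tail of a bounded angular length is small -/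
lemma Cur.tail {Om r : ℝ × ℝ → ℝ} {a a' : ℝ → P5} (h : Cur Om r a a') {M : ℝ}
    (hM : ∀ t ∈ Ioo (1 / 2 : ℝ) 1, ang a' (1 / 2) t ≤ M) {δ : ℝ} (hδ : 0 < δ) {b : ℝ} (hb : b < 1) :
    ∃ τ ∈ Ioo b 1, 1 / 2 < τ ∧ ∀ t ∈ Ico τ 1, ang a' τ t ≤ δ := by
  have hne : ((fun t => ang a' (1 / 2) t) '' Ioo (1 / 2 : ℝ) 1).Nonempty :=
    (nonempty_Ioo.2 (by norm_num)).image _
  have hbd : BddAbove ((fun t => ang a' (1 / 2) t) '' Ioo (1 / 2 : ℝ) 1) :=
    ⟨M, by rintro _ ⟨t, ht, rfl⟩; exact hM t ht⟩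
  obtain ⟨_, ⟨t0, ht0, rfl⟩, h1⟩ := exists_lt_of_lt_csSup hne (sub_lt_self _ hδ)
  have k0 : max b t0 < 1 := max_lt hb ht0.2
  have k1 := le_max_left b t0
  have k2 := le_max_right b t0
  refine ⟨(max b t0 + 1) / 2, ⟨by linarith, by linarith⟩, by linarith [ht0.1], fun t ht => ?_⟩
  have q1 := h.ang_add (s := 1 / 2) (t := t0) (w := (max b t0 + 1) / 2) (by norm_num) ht0.1.le
    (by linarith) (by linarith)
  have q2 := h.ang_add (s := 1 / 2) (t := (max b t0 + 1) / 2) (w := t) (by norm_num)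
    (by linarith [ht0.1]) ht.1 ht.2
  have q3 := ang_nonneg a' (show t0 ≤ (max b t0 + 1) / 2 by linarith)
  have q4 := le_csSup hbd ⟨t, ⟨by linarith [ht0.1, ht.1], ht.2⟩, rfl⟩
  simp only at h1 q4
  linarith

/-- **Finite angular length.** -/
theorem far_of_finite {Om r : ℝ × ℝ → ℝ} (hO : Continuous Om) (hr : Continuous r)
    (hO0 : ∀ q, 0 < Om q) (hr0 : ∀ q, 0 < r q) {a a' : ℝ → P5} (h : Cur Om r a a') {M : ℝ}
    (hM : ∀ t ∈ Ioo (1 / 2 : ℝ) 1, ang a' (1 / 2) t ≤ M)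
    (hv : Tendsto (fun t => (a t).2.1) (𝓝[<] 1) atTop)
    (hlow : ∀ s ∈ Ioo (0:ℝ) 1, ∃ c > 0, ∃ u1 > (a s).1, ∀ u ∈ Icc (a s).1 u1, ∀ v ≥ (a s).2.1,
      c ≤ Om (u, v)) : FarA Om r a := by
  intro b hb
  obtain ⟨s, hs, hs0⟩ := exists_start hb
  refine ⟨s, hs, hs0, fun L => ?_⟩
  obtain ⟨δ, hδ, hsl⟩ := h.exists_slack hO hr hO0 hr0 (t1 := (s + 1) / 2) hs0 (by linarith [hs.2])
    (by linarith [hs.2])
  obtain ⟨τ, hτ, -, htail⟩ := h.tail hM (δ := δ / 4) (by positivity) (b := (s + 1) / 2)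
    (by linarith [hs.2])
  have hsτ : s < τ := by linarith [hτ.1, hs.2]
  have hτ0 : 0 < τ := hs0.trans hsτ
  obtain ⟨c0, hc0, u1, hu1, hlow⟩ := hlow τ ⟨hτ0, hτ.2⟩
  have umono := h.umono
  have vmono := h.vmono
  obtain ⟨τ3, hτ3, hu3⟩ : ∃ τ3 ∈ Ioo τ 1, (a τ3).1 < u1 := by
    have k1 : ∀ᶠ t in 𝓝 τ, (a t).1 < u1 :=
      (h.du ⟨hτ0, hτ.2⟩).continuousAt.eventually (Iio_mem_nhds hu1)
    obtain ⟨t, k2, k3⟩ := ((k1.filter_mono nhdsWithin_le_nhds).and
      (Ioo_mem_nhdsGT hτ.2)).exists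
    exact ⟨t, k3, k2⟩
  obtain ⟨τ2, hτ2⟩ : ∃ τ2, τ2 = (τ + τ3) / 2 := ⟨_, rfl⟩
  have h12 : τ < τ2 := by linarith [hτ3.1]
  have h23 : τ2 < τ3 := by linarith [hτ3.1]
  obtain ⟨x0, hx0, hm⟩ := isCompact_Icc.exists_isMinOn (nonempty_Icc.2 h23.le)
    (h.cder.fst.mono (sub_Ioo (hτ0.trans h12) hτ3.2))
  obtain ⟨m, hme⟩ : ∃ m, m = (a' x0).1 := ⟨_, rfl⟩
  have hm0 : 0 < m := by rw [hme]; exact (h.tl x0 (sub_Ioo (hτ0.trans h12) hτ3.2 hx0)).2.1
  have hm1 : ∀ x ∈ Icc τ2 τ3, m ≤ (a' x).1 := fun x hx => by rw [hme]; exact hm hx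
  clear hm hme
  have hl1 := ang_nonneg a' hsτ.le
  obtain ⟨d, hd⟩ : ∃ d, d = δ / 2 / (ang a' s τ + δ) := ⟨_, rfl⟩
  have hd0 : 0 < d := by rw [hd]; positivity
  obtain ⟨K, hK⟩ : ∃ K, K = d * (τ3 - τ2) ^ 2 * (c0 * m * (τ2 - τ)) := ⟨_, rfl⟩
  have hK0 : 0 < K := by
    have : 0 < τ3 - τ2 := by linarith
    have : 0 < τ2 - τ := by linarith
    rw [hK]; positivity
  obtain ⟨t, ht, hvt⟩ : ∃ t ∈ Ioo τ3 1, (a τ3).2.1 + (|L| + 1) / K ≤ (a t).2.1 := by
    obtain ⟨t, k2, k3⟩ := ((hv.eventually (eventually_ge_atTop ((a τ3).2.1 + (|L| + 1) / K))).and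
      (Ioo_mem_nhdsLT hτ3.2)).exists
    exact ⟨t, k3, k2⟩
  have hτt : τ < t := hτ3.1.trans ht.1
  have hst : s < t := hsτ.trans hτt
  refine ⟨t, ⟨hst, ht.2⟩, ?_⟩
  obtain ⟨η, hη, hηδ, hη1⟩ := h.exists_eta hO hr hO0 hr0 hs0 hst ht.2 (δ := δ / 4) (by positivity)
  obtain ⟨c, c', dc, cc', hc⟩ := h.extend hs0 hst.le ht.2
  have cc : Continuous c := continuous_iff_continuousAt.2 fun x => (dc x).continuousAt
  obtain ⟨V, hV⟩ : ∃ V : ℝ → ℝ → ℝ, V = fun y x =>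
    (c x).2.1 + y / 2 * (max 0 (x - τ) ^ 2 * ((c t).2.1 - (c x).2.1)) := ⟨_, rfl⟩
  obtain ⟨V', hV'⟩ : ∃ V' : ℝ → ℝ → ℝ, V' = fun y x => (c' x).2.1 + y / 2 *
    (2 * max 0 (x - τ) * ((c t).2.1 - (c x).2.1) + max 0 (x - τ) ^ 2 * -(c' x).2.1) := ⟨_, rfl⟩
  have htm : t ∈ Icc s t := ⟨hst.le, le_rfl⟩
  have hvle : ∀ x ∈ Icc s t, (c x).2.1 ≤ (c t).2.1 := by
    intro x hx
    rw [(hc x hx).1, (hc t htm).1]
    exact vmono.monotoneOn (sub_Ioo hs0 ht.2 hx) (sub_Ioo hs0 ht.2 htm) hx.2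
  have hV'low : ∀ y ∈ Icc (0:ℝ) 1, ∀ x ∈ Icc s t,
      y * max 0 (x - τ) * ((c t).2.1 - (c x).2.1) < V' y x := by
    intro y hy x hx
    have k1 : 0 < (c' x).2.1 := by
      rw [(hc x hx).2]; exact (h.tl x (sub_Ioo hs0 ht.2 hx)).2.2
    have k2 : 0 ≤ max 0 (x - τ) := le_max_left _ _
    have k3 : max 0 (x - τ) ≤ 1 := max_le zero_le_one (by linarith [hx.2, ht.2])
    have k4 : max 0 (x - τ) ^ 2 ≤ 1 := pow_le_one₀ k2 k3
    have k5 : y * max 0 (x - τ) ^ 2 ≤ 1 := mul_le_one₀ hy.2 (sq_nonneg _) k4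
    have k6 := mul_le_mul_of_nonneg_right k5 k1.le
    simp only [hV']
    nlinarith
  have hP : Pre s t (fun _ x => (c x).1) (fun _ x => (c' x).1) V V' (fun x => (c x).2.2)
      (fun x => (c' x).2.2) := by
    refine ⟨by fun_prop, by fun_prop, by rw [hV]; fun_prop, by rw [hV']; fun_prop, by fun_prop,
      fun _ x => (dc x).fst, fun y x => ?_, fun x => (dc x).snd.snd, ?_, ?_, ?_, ?_⟩
    · rw [hV, hV']
      have dv : HasDerivAt (fun x => (c x).2.1) (c' x).2.1 x := (dc x).snd.fst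
      exact dv.add (((chi_deriv τ x).mul (dv.const_sub (c t).2.1)).const_mul (y / 2))
    · intro y hy x hx
      refine ⟨?_, lt_of_le_of_lt ?_ (hV'low y hy x hx)⟩
      · rw [(hc x hx).2]
        exact (h.tl x (sub_Ioo hs0 ht.2 hx)).2.1
      · exact mul_nonneg (mul_nonneg hy.1 (le_max_left _ _)) (sub_nonneg.2 (hvle x hx))
    · intro x hx
      rw [(hc x hx).1]
      exact h.sph x (sub_Ioo hs0 ht.2 hx)
    · intro y _
      refine ⟨rfl, ?_⟩
      simp only [hV, max_eq_left (show s - τ ≤ 0 by linarith)]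
      ring
    · intro y _
      refine ⟨rfl, ?_⟩
      simp only [hV, sub_self]
      ring
  have csp : Continuous fun q : ℝ × ℝ =>
      spd Om (fun _ x => (c x).1) (fun _ x => (c' x).1) V V' q.1 q.2 :=
    (((hO.comp (hP.cU.prodMk hP.cV)).mul hP.cU').mul hP.cV').sqrt
  have cb : Continuous fun q : ℝ × ℝ =>
      bud Om r (fun _ x => (c x).1) (fun _ x => (c' x).1) V V' q.1 q.2 :=
    csp.div (hr.comp (hP.cU.prodMk hP.cV)) fun q => (hr0 _).ne'
  have csp1 : ∀ y, Continuous (spd Om (fun _ x => (c x).1) (fun _ x => (c' x).1) V V' y) :=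
    fun y => csp.comp (continuous_const.prodMk continuous_id : Continuous fun x : ℝ => (y, x))
  have cb1 : ∀ y, Continuous (bud Om r (fun _ x => (c x).1) (fun _ x => (c' x).1) V V' y) :=
    fun y => cb.comp (continuous_const.prodMk continuous_id : Continuous fun x : ℝ => (y, x))
  have eb0 : ∀ x ∈ Icc s t, bud Om r (fun _ x => (c x).1) (fun _ x => (c' x).1) V V' 0 x =
      bd Om r a a' x := by
    intro x hx
    simp only [bud, spd, bd, hV, hV', (hc x hx).1, (hc x hx).2, zero_div, zero_mul, add_zero]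
  have eb : ∀ y, ∀ x ∈ Icc s τ, bud Om r (fun _ x => (c x).1) (fun _ x => (c' x).1) V V' y x =
      bd Om r a a' x := by
    intro y x hx
    have hx' : x ∈ Icc s t := ⟨hx.1, hx.2.trans hτt.le⟩
    have e : max 0 (x - τ) = 0 := max_eq_left (by linarith [hx.2])
    simp only [bud, spd, bd, hV, hV', (hc x hx').1, (hc x hx').2, e, mul_zero, zero_mul, add_zero,
      ne_eq, OfNat.ofNat_ne_zero, not_false_eq_true, zero_pow]
  have hBy : ∀ y, ang a' s τ + δ ≤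
      ∫ x in s..t, bud Om r (fun _ x => (c x).1) (fun _ x => (c' x).1) V V' y x := by
    intro y
    rw [← intervalIntegral.integral_add_adjacent_intervals ((cb1 y).intervalIntegrable s τ)
      ((cb1 y).intervalIntegrable τ t), int_congr hsτ.le (eb y)]
    have k1 := hsl τ ⟨hτ.1.le, hτ.2⟩
    have k2 : 0 ≤ ∫ x in τ..t, bud Om r (fun _ x => (c x).1) (fun _ x => (c' x).1) V V' y x :=
      intervalIntegral.integral_nonneg hτt.le fun x _ =>
        div_nonneg (Real.sqrt_nonneg _) (hr0 _).le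
    linarith
  have el : ∫ x in s..t, (‖(c' x).2.2‖ + η) = ang a' s t + η * (t - s) := by
    rw [intervalIntegral.integral_add (by apply Continuous.intervalIntegrable; fun_prop)
      (by simp), intervalIntegral.integral_const, smul_eq_mul, mul_comm, ang]
    congr 1
    exact int_congr hst.le fun x hx => by rw [(hc x hx).2]
  have hl0 := ang_nonneg a' hst.le
  have hηt : η * (t - s) ≤ δ / 4 := by nlinarith [ht.2]
  have hηt0 : 0 ≤ η * (t - s) := by nlinarith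
  have hlt : ang a' s t ≤ ang a' s τ + δ / 4 := by
    rw [h.ang_add hs0 hsτ.le hτt.le ht.2]
    linarith [htail t ⟨hτt.le, ht.2⟩]
  -- the long curve
  have hT : (τ3 - τ2) * √(c0 * m * (τ2 - τ) * ((|L| + 1) / K)) ≤
      ∫ x in s..t, spd Om (fun _ x => (c x).1) (fun _ x => (c' x).1) V V' 1 x := by
    have hs2 : s ≤ τ2 := by linarith
    rw [← intervalIntegral.integral_add_adjacent_intervals ((csp1 1).intervalIntegrable s τ2)
      ((csp1 1).intervalIntegrable τ2 t),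
      ← intervalIntegral.integral_add_adjacent_intervals ((csp1 1).intervalIntegrable τ2 τ3)
      ((csp1 1).intervalIntegrable τ3 t)]
    have k1 : 0 ≤ ∫ x in s..τ2, spd Om (fun _ x => (c x).1) (fun _ x => (c' x).1) V V' 1 x :=
      intervalIntegral.integral_nonneg hs2 fun x _ => Real.sqrt_nonneg _
    have k2 : 0 ≤ ∫ x in τ3..t, spd Om (fun _ x => (c x).1) (fun _ x => (c' x).1) V V' 1 x :=
      intervalIntegral.integral_nonneg ht.1.le fun x _ => Real.sqrt_nonneg _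
    have k3 : ∫ x in τ2..τ3, √(c0 * m * (τ2 - τ) * ((|L| + 1) / K)) ≤
        ∫ x in τ2..τ3, spd Om (fun _ x => (c x).1) (fun _ x => (c' x).1) V V' 1 x := by
      refine intervalIntegral.integral_mono_on h23.le (by simp) ((csp1 1).intervalIntegrable _ _)
        fun x hx => Real.sqrt_le_sqrt ?_
      have hx' : x ∈ Icc s t := ⟨hs2.trans hx.1, hx.2.trans ht.1.le⟩
      have hx1 : x ∈ Ioo (0:ℝ) 1 := sub_Ioo hs0 ht.2 hx'
      have hτx : τ ≤ x := h12.le.trans hx.1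
      have q1 : (a τ).1 ≤ (a x).1 := umono.monotoneOn ⟨hτ0, hτ.2⟩ hx1 hτx
      have q2 : (a x).1 ≤ (a τ3).1 := umono.monotoneOn hx1 ⟨hτ0.trans hτ3.1, hτ3.2⟩ hx.2
      have q3 : (a τ).2.1 ≤ (a x).2.1 := vmono.monotoneOn ⟨hτ0, hτ.2⟩ hx1 hτx
      have q4 : (a x).2.1 ≤ (a τ3).2.1 := vmono.monotoneOn hx1 ⟨hτ0.trans hτ3.1, hτ3.2⟩ hx.2
      have q5 : (a x).2.1 ≤ V 1 x := by
        have := mul_nonneg (sq_nonneg (max 0 (x - τ))) (sub_nonneg.2 (hvle x hx'))
        simp only [hV, ← (hc x hx').1]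
        linarith
      have q6 : c0 ≤ Om ((c x).1, V 1 x) := by
        rw [(hc x hx').1]
        exact hlow _ ⟨q1, q2.trans hu3.le⟩ _ (q3.trans q5)
      have q7 : m ≤ (c' x).1 := by rw [(hc x hx').2]; exact hm1 x hx
      have q8 := hV'low 1 ⟨zero_le_one, le_rfl⟩ x hx'
      rw [one_mul, max_eq_right (by linarith), (hc x hx').1, (hc t htm).1] at q8
      have q9 : (τ2 - τ) * ((|L| + 1) / K) ≤ V' 1 x := by
        refine le_trans ?_ q8.le
        exact mul_le_mul (by linarith [hx.1]) (by linarith) (by positivity) (by linarith)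
      have q10 : 0 ≤ (τ2 - τ) * ((|L| + 1) / K) := mul_nonneg (by linarith) (by positivity)
      show _ ≤ Om ((c x).1, V 1 x) * (c' x).1 * V' 1 x
      rw [mul_assoc (c0 * m)]
      exact mul_le_mul (mul_le_mul q6 q7 hm0.le (hO0 _).le) q9 q10
        (mul_nonneg (hO0 _).le (hm0.le.trans q7))
    rw [intervalIntegral.integral_const, smul_eq_mul] at k3
    linarith
  obtain ⟨H, H', k1, k2, k3⟩ := slide hO hr hO0 hr0 hst hP hη
    (fun x hx => by rw [eb0 x hx, (hc x hx).2]; exact hη1 x hx)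
    (fun y _ => by rw [el]; linarith [hBy y]) (L := L) (by
      rw [el]
      have q0 := hBy 1
      generalize (∫ x in s..t, bud Om r (fun _ x => (c x).1) (fun _ x => (c' x).1) V V' 1 x) = B
        at q0 ⊢
      have B0 : 0 < B := by linarith
      have q1 := sqrt_lower (l := ang a' s t + η * (t - s)) (d := d) (by linarith) B0 hd0.le (by
        have e : (1 - d) * (ang a' s τ + δ) = ang a' s τ + δ / 2 := by
          rw [hd]; field_simp; ring
        have e1 : 0 ≤ 1 - d := by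
          rw [hd, sub_nonneg, div_le_one (by linarith)]; linarith
        have := mul_le_mul_of_nonneg_left q0 e1
        linarith)
      have h32 : 0 < τ3 - τ2 := by linarith
      have h21 : 0 < τ2 - τ := by linarith
      have q2 : √L < √d * ((τ3 - τ2) * √(c0 * m * (τ2 - τ) * ((|L| + 1) / K))) := by
        rw [Real.sqrt_lt' (by positivity), mul_pow, mul_pow, Real.sq_sqrt hd0.le,
          Real.sq_sqrt (by positivity)]
        have q3 : d * ((τ3 - τ2) ^ 2 * (c0 * m * (τ2 - τ) * ((|L| + 1) / K))) = |L| + 1 := by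
          rw [hK]; field_simp
        rw [q3]
        linarith [le_abs_self L]
      exact q2.trans_le (mul_le_mul q1 hT (by positivity) (Real.sqrt_nonneg _)))
  refine ⟨H, H', k1, fun x hx => ?_, k3⟩
  rw [k2, ← (hc _ (aff_mem hst.le hx)).1]
  simp only [hV, zero_div, zero_mul, add_zero]

/-- The exchange of `u` and `v`. -/
def sw (p : P5) : P5 := (p.2.1, p.1, p.2.2)

lemma Gm_sw (Om r : ℝ × ℝ → ℝ) (p w : P5) :
    Gm (Om ∘ Prod.swap) (r ∘ Prod.swap) (sw p) (sw w) = Gm Om r p w := by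
  simp only [Gm, sw, Function.comp, Prod.swap]
  ring

lemma sw_deriv {c : ℝ → P5} {w : P5} {x : ℝ} (h : HasDerivAt c w x) :
    HasDerivAt (fun x => sw (c x)) (sw w) x :=
  h.snd.fst.prodMk (h.fst.prodMk h.snd.snd)

lemma sw_cont : Continuous sw := by unfold sw; fun_prop

lemma Cur.sw {Om r : ℝ × ℝ → ℝ} {a a' : ℝ → P5} (h : Cur Om r a a') :
    Cur (Om ∘ Prod.swap) (r ∘ Prod.swap) (fun t => sw (a t)) (fun t => sw (a' t)) :=
  ⟨fun t ht => sw_deriv (h.der t ht), sw_cont.comp_continuousOn h.cder, h.sph, fun t ht =>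
    ⟨by rw [Gm_sw]; exact (h.tl t ht).1, (h.tl t ht).2.2, (h.tl t ht).2.1⟩⟩

lemma FarA.sw {Om r : ℝ × ℝ → ℝ} {a : ℝ → P5}
    (h : FarA (Om ∘ Prod.swap) (r ∘ Prod.swap) fun t => sw (a t)) : FarA Om r a := by
  intro b hb
  obtain ⟨s, hs, hs0, h⟩ := h b hb
  refine ⟨s, hs, hs0, fun L => ?_⟩
  obtain ⟨t, ht, H, H', k1, k2, k3⟩ := h L
  have e : ∀ p w, Gm Om r (P354F.sw p) (P354F.sw w) = Gm (Om ∘ Prod.swap) (r ∘ Prod.swap) p w :=
    fun p w => Gm_sw (Om ∘ Prod.swap) (r ∘ Prod.swap) p w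
  refine ⟨t, ht, fun y x => P354F.sw (H y x), fun y x => P354F.sw (H' y x),
    ⟨sw_cont.comp k1.cont, fun y x => sw_deriv (k1.der y x), fun y => sw_cont.comp (k1.cder y),
      k1.sph, fun y x hx => ⟨by rw [e]; exact (k1.tl y x hx).1, (k1.tl y x hx).2.2,
        (k1.tl y x hx).2.1⟩, fun y => by simp only [k1.e0 y], fun y => by simp only [k1.e1 y]⟩,
    fun x hx => by simp only [k2 x hx]; rfl, fun x hx => by rw [e]; exact k3 x hx⟩

/-- **Finite angular length**, `u` and `v` exchanged. -/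
theorem far_of_finite' {Om r : ℝ × ℝ → ℝ} (hO : Continuous Om) (hr : Continuous r)
    (hO0 : ∀ q, 0 < Om q) (hr0 : ∀ q, 0 < r q) {a a' : ℝ → P5} (h : Cur Om r a a') {M : ℝ}
    (hM : ∀ t ∈ Ioo (1 / 2 : ℝ) 1, ang a' (1 / 2) t ≤ M)
    (hu : Tendsto (fun t => (a t).1) (𝓝[<] 1) atTop)
    (hlow : ∀ s ∈ Ioo (0:ℝ) 1, ∃ c > 0, ∃ v1 > (a s).2.1, ∀ v ∈ Icc (a s).2.1 v1, ∀ u ≥ (a s).1,
      c ≤ Om (u, v)) : FarA Om r a :=
  FarA.sw (far_of_finite (hO.comp continuous_swap) (hr.comp continuous_swap) (fun _ => hO0 _)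
    (fun _ => hr0 _) h.sw (M := M) hM hu hlow)

end Vale.Agent.P354F
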