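import Vale.Agent.P354F.Cauchy
import Vale.Agent.P354F.Trans
import Vale.Agent.P354F.GIface
import Vale.Agent.P354E.Sym
import Vale.Agent.P354.H251.Inx

/-!
The assembly of the geometric block.
-/

open scoped ContDiff
open Set Filter Topology

namespace Vale.Agent.P354F

open Vale.Agent.P354n (IsFutureCurve AllEnd)
open Vale.Agent.P354E

/-- **All ends.** -/
theorem allEnd (h3 : GFront) (h4 : GCorner) {e : ℝ} {S : Fld} (hs : IsSol e S univ)
    (hm : Smooth S univ) (hF : FS S) : AllEnd 2 (sp S) := by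
  intro a ha hl
  have hr : Continuous S.r := continuousOn_univ.1 hs.cont.r
  have hO : Continuous S.O := Real.continuous_exp.comp (continuousOn_univ.1 hs.cont.w)
  have hr0 : ∀ q, 0 < S.r q := fun q => (hs.sol q (mem_univ q)).pos
  have h := cur_of_curve (uniqueDiffOn_Ico 0 1) Ioo_subset_Ico_self ha
  obtain ⟨⟨c, hc, h1⟩, V, uH, vH, r1, r2, b1, b2⟩ := id hF
  rcases mono_lim h.umono with ⟨u1, hu, hu'⟩ | hu <;>
    rcases mono_lim h.vmono with ⟨v1, hv, hv'⟩ | hv
  · obtain ⟨z, k1, k2⟩ := h.conv hO hr (O_pos' S) hr0 hu hv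
    exact (hl _ (lim_of_emb k1 k2)).elim
  · rcases le_or_gt u1 uH with k | k
    · exact Or.inr (Or.inr (isFar_of_farA (h.far_ext hO hr (O_pos' S) hr0 hc h1 hu hu' hv
        fun ua => r1.2.1 ua u1 k)))
    · exact Or.inl (h3 e S V uH hs hm hF.1 r1 b1 a ha u1 k hu hv)
  · rcases le_or_gt v1 vH with k | k
    · refine Or.inr (Or.inr (isFar_of_farA (FarA.sw (h.sw.far_ext (hO.comp continuous_swap)
        (hr.comp continuous_swap) (fun _ => O_pos' S _) (fun _ => hr0 _) hc
        (fun q hq => h1 q.swap ?_) hv hv' hu fun ua => r2.2.1 ua v1 k))))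
      simp only [Prod.fst_swap, Prod.snd_swap]
      linarith
    · refine Or.inl (front_of_sw (h3 e S.sw V vH hs.sw hm.sw ⟨c, hc, fun q hq => h1 q.swap ?_⟩ r2 b2 _
        (curve_sw ha) v1 k hv hu))
      simp only [Prod.fst_swap, Prod.snd_swap]
      linarith
  · exact Or.inr (Or.inl (h4 e S hs hm hF a ha hu hv))

/-- **The geometric block.** -/
theorem bGeo (h1 : GEms) (h2 : GInd) (h3 : GFront) (h4 : GCorner) : BGeo := by
  intro M e om d S hd hs hm h0 hF hF'
  have hr : Continuous S.r := continuousOn_univ.1 hs.cont.r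
  have hO : Continuous S.O := Real.continuous_exp.comp (continuousOn_univ.1 hs.cont.w)
  have hr0 : ∀ q, 0 < S.r q := fun q => (hs.sol q (mem_univ q)).pos
  have k1 := isSpacetime (contDiffOn_univ.1 hm.r) (contDiffOn_univ.1 hm.w) hr0
  have k2 := allEnd h3 h4 hs hm hF
  have k3 := allEnd_rev (allEnd h3 h4 hs.tr hm.tr hF')
  refine ⟨sp S, phi S, FF d.e S, jj S, k1, connected_sp S, h1 _ S hs hm,
    ⟨jj_embedding S, cauchy hO hr hr0, fun x => ?_, h2 M e om d S hd hs hm h0⟩,
    ((P354n.inext 2 le_rfl).1 _ k1).2 k2,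
    P354v.T.N.inext2 le_rfl k1 ⟨((0, 0), st true 0)⟩ k2 k3⟩
  have k4 := h0 x.1
  have k5 : |S.p (-x.1, x.1) - (red d).p (-x.1, x.1)| = 0 := by
    refine le_antisymm ?_ (abs_nonneg _)
    rw [← k4, dd]
    have := abs_nonneg (S.r (-x.1, x.1) - (red d).r (-x.1, x.1))
    have := abs_nonneg (S.w (-x.1, x.1) - (red d).w (-x.1, x.1))
    have := abs_nonneg (S.l (-x.1, x.1) - (red d).l (-x.1, x.1))
    have := abs_nonneg (S.n (-x.1, x.1) - (red d).n (-x.1, x.1))
    have := abs_nonneg (S.wu (-x.1, x.1) - (red d).wu (-x.1, x.1))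
    have := abs_nonneg (S.wv (-x.1, x.1) - (red d).wv (-x.1, x.1))
    have := abs_nonneg (S.pu (-x.1, x.1) - (red d).pu (-x.1, x.1))
    have := abs_nonneg (S.pv (-x.1, x.1) - (red d).pv (-x.1, x.1))
    linarith
  exact sub_eq_zero.1 (abs_eq_zero.1 k5)

end Vale.Agent.P354F
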