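import Mathlib

/-!
Primitives of positive continuous functions and their inverses, with parameters.
-/

open Set Filter Topology MeasureTheory

namespace Vale.Agent.P354F

/-- The point of `[α, β]` closest to `x`. -/
noncomputable def cl (α β x : ℝ) : ℝ := max α (min x β)

lemma cl_cont (α β : ℝ) : Continuous (cl α β) := by
  unfold cl; fun_prop

lemma cl_mem {α β : ℝ} (h : α ≤ β) (x : ℝ) : cl α β x ∈ Icc α β :=
  ⟨le_max_left _ _, max_le h (min_le_right _ _)⟩

lemma cl_eq {α β x : ℝ} (hx : x ∈ Icc α β) : cl α β x = x := by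
  unfold cl; rw [min_eq_left hx.2, max_eq_right hx.1]

/-- The primitive of `p ∘ cl α β` that vanishes at `α`. -/
noncomputable def prim (α β : ℝ) (p : ℝ → ℝ) (z : ℝ) : ℝ := ∫ x in α..z, p (cl α β x)

lemma prim_deriv {α β : ℝ} {p : ℝ → ℝ} (hp : Continuous p) (z : ℝ) :
    HasDerivAt (prim α β p) (p (cl α β z)) z :=
  ((hp.comp (cl_cont α β)).integral_hasStrictDerivAt α z).hasDerivAt

lemma prim_left (α β : ℝ) (p : ℝ → ℝ) : prim α β p α = 0 := by
  simp [prim]

lemma prim_eq {α β z : ℝ} (p : ℝ → ℝ) (hz : z ∈ Icc α β) : prim α β p z = ∫ x in α..z, p x := by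
  unfold prim
  refine intervalIntegral.integral_congr fun x hx => ?_
  rw [uIcc_of_le hz.1] at hx
  show p (cl α β x) = p x
  rw [cl_eq ⟨hx.1, hx.2.trans hz.2⟩]

lemma prim_cont2 {α β : ℝ} {p : ℝ → ℝ → ℝ} (hp : Continuous fun q : ℝ × ℝ => p q.1 q.2) :
    Continuous fun q : ℝ × ℝ => prim α β (p q.1) q.2 := by
  have h : Continuous (Function.uncurry fun y x => p y (cl α β x)) :=
    hp.comp (continuous_fst.prodMk ((cl_cont α β).comp continuous_snd))
  exact intervalIntegral.continuous_parametric_primitive_of_continuous h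

lemma prim_strictMono {α β : ℝ} (h : α ≤ β) {p : ℝ → ℝ} (hp : Continuous p)
    (h0 : ∀ x ∈ Icc α β, 0 < p x) : StrictMono (prim α β p) :=
  strictMono_of_deriv_pos fun z => by
    rw [(prim_deriv hp z).deriv]; exact h0 _ (cl_mem h z)

lemma prim_surj {α β : ℝ} (h : α ≤ β) {p : ℝ → ℝ} (hp : Continuous p)
    (h0 : ∀ x ∈ Icc α β, 0 < p x) : Function.Surjective (prim α β p) := by
  obtain ⟨x0, hx0, hm⟩ := isCompact_Icc.exists_isMinOn (nonempty_Icc.2 h) hp.continuousOn
  set m := p x0 with hmdef
  have hm0 : 0 < m := h0 x0 hx0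
  have hc : Continuous (prim α β p) :=
    continuous_iff_continuousAt.2 fun z => (prim_deriv hp z).continuousAt
  have hmono : Monotone fun z => prim α β p z - m * z := by
    refine monotone_of_deriv_nonneg (fun z => ?_) fun z => ?_
    · exact ((prim_deriv hp z).sub ((hasDerivAt_id z).const_mul m)).differentiableAt
    · have := ((prim_deriv (α := α) (β := β) hp z).sub ((hasDerivAt_id z).const_mul m)).deriv
      have e : (fun z => prim α β p z - m * z) = prim α β p - fun y => m * id y := rfl
      rw [e, this]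
      have h1 : m ≤ p (cl α β z) := hm (cl_mem h z)
      linarith
  refine hc.surjective ?_ ?_
  · refine tendsto_atTop_mono' atTop (f₁ := fun z => m * z + (- m * α)) ?_ ?_
    · filter_upwards [eventually_ge_atTop α] with z hz
      have := hmono hz
      simp only [prim_left] at this
      linarith
    · exact tendsto_atTop_add_const_right _ _ (tendsto_id.const_mul_atTop hm0)
  · refine tendsto_atBot_mono' atBot (f₁ := fun z => m * z + (- m * α)) ?_ ?_
    · filter_upwards [eventually_le_atBot α] with z hz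
      have := hmono hz
      simp only [prim_left] at this
      linarith
    · exact tendsto_atBot_add_const_right _ _ (tendsto_id.const_mul_atBot hm0)

/-- The inverse of the primitive. -/
noncomputable def pinv (α β : ℝ) (p : ℝ → ℝ) (τ : ℝ) : ℝ := Function.invFun (prim α β p) τ

section
variable {α β : ℝ} (h : α ≤ β) {p : ℝ → ℝ} (hp : Continuous p) (h0 : ∀ x ∈ Icc α β, 0 < p x)
include h hp h0

lemma prim_pinv (τ : ℝ) : prim α β p (pinv α β p τ) = τ :=
  Function.rightInverse_invFun (prim_surj h hp h0) τ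

lemma pinv_prim (z : ℝ) : pinv α β p (prim α β p z) = z :=
  Function.leftInverse_invFun (prim_strictMono h hp h0).injective z

lemma lt_pinv {τ z : ℝ} : z < pinv α β p τ ↔ prim α β p z < τ := by
  rw [← (prim_strictMono h hp h0).lt_iff_lt, prim_pinv h hp h0]

lemma pinv_lt {τ z : ℝ} : pinv α β p τ < z ↔ τ < prim α β p z := by
  rw [← (prim_strictMono h hp h0).lt_iff_lt, prim_pinv h hp h0]

lemma pinv_cont : Continuous (pinv α β p) := by
  refine OrderTopology.continuous_iff.2 fun a => ⟨?_, ?_⟩
  · have : pinv α β p ⁻¹' Ioi a = Ioi (prim α β p a) := by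
      ext τ; exact lt_pinv h hp h0
    rw [this]; exact isOpen_Ioi
  · have : pinv α β p ⁻¹' Iio a = Iio (prim α β p a) := by
      ext τ; exact pinv_lt h hp h0
    rw [this]; exact isOpen_Iio

lemma pinv_deriv (τ : ℝ) : HasDerivAt (pinv α β p) (p (cl α β (pinv α β p τ)))⁻¹ τ :=
  HasDerivAt.of_local_left_inverse (pinv_cont h hp h0).continuousAt (prim_deriv hp _)
    (h0 _ (cl_mem h _)).ne' (Eventually.of_forall fun y => prim_pinv h hp h0 y)

lemma pinv_zero : pinv α β p 0 = α := by
  have := pinv_prim h hp h0 α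
  rwa [prim_left] at this

lemma pinv_mem {τ : ℝ} (h1 : 0 ≤ τ) (h2 : τ ≤ prim α β p β) : pinv α β p τ ∈ Icc α β := by
  constructor
  · by_contra hc
    rw [not_le, pinv_lt h hp h0, prim_left] at hc
    linarith
  · by_contra hc
    rw [not_le, lt_pinv h hp h0] at hc
    linarith

end

lemma pinv_cont2 {α β : ℝ} (h : α ≤ β) {p : ℝ → ℝ → ℝ}
    (hp : Continuous fun q : ℝ × ℝ => p q.1 q.2) (h0 : ∀ y, ∀ x ∈ Icc α β, 0 < p y x) :
    Continuous fun q : ℝ × ℝ => pinv α β (p q.1) q.2 := by
  have hp1 : ∀ y, Continuous (p y) := fun y => hp.comp (continuous_const.prodMk continuous_id)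
  refine OrderTopology.continuous_iff.2 fun a => ⟨?_, ?_⟩
  · have : (fun q : ℝ × ℝ => pinv α β (p q.1) q.2) ⁻¹' Ioi a =
        {q : ℝ × ℝ | prim α β (p q.1) a < q.2} := by
      ext q; exact lt_pinv h (hp1 _) (h0 _)
    rw [this]
    exact isOpen_lt ((prim_cont2 hp).comp (continuous_fst.prodMk continuous_const)) continuous_snd
  · have : (fun q : ℝ × ℝ => pinv α β (p q.1) q.2) ⁻¹' Iio a =
        {q : ℝ × ℝ | q.2 < prim α β (p q.1) a} := by
      ext q; exact pinv_lt h (hp1 _) (h0 _)
    rw [this]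
    exact isOpen_lt continuous_snd ((prim_cont2 hp).comp (continuous_fst.prodMk continuous_const))

end Vale.Agent.P354F
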