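import Vale.Agent.P354F.Amb
import Vale.Agent.P354F.Far

/-!
`sp S` is a connected smooth spacetime; its future timelike curves.
-/

open scoped ContDiff RealInnerProductSpace
open Set Filter Topology

namespace Vale.Agent.P354F

open Vale.Agent.P354n (R4 Spc On tgt co inv IsSmooth IsSpacetime IsFutureCurve IsIsom mink IsFar)
open Vale.Agent.P354E

lemma O_pos' (S : Fld) (q : P2) : 0 < S.O q := Real.exp_pos _

lemma cf_pos (y : R4) : 0 < cf y := by unfold cf; positivity

lemma cf_smooth : ContDiff ℝ ∞ cf := by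
  unfold cf
  exact ContDiff.div contDiff_const (by fun_prop) fun y => by positivity

lemma tgt_open (c : PC × Bool) : IsOpen {y : R4 | p2 y ∈ c.1.ξ.target} := (chart c).open_target

lemma bv_smooth (c : PC × Bool) (a : R4) :
    ContDiffOn ℝ ∞ (fun y => bv c y a) {y : R4 | p2 y ∈ c.1.ξ.target} := by
  have h1 : ContDiffOn ℝ ∞ (fderiv ℝ c.1.ξ.symm) c.1.ξ.target :=
    c.1.sm'.fderiv_of_isOpen c.1.ξ.open_target (by simp)
  exact (h1.comp p2_smooth.contDiffOn fun _ h => h).clm_apply contDiffOn_const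

lemma bq_smoothOn (c : PC × Bool) : ContDiffOn ℝ ∞ (bq c) {y : R4 | p2 y ∈ c.1.ξ.target} :=
  fun _ h => (bq_smooth h).contDiffWithinAt

theorem isSpacetime {S : Fld} (hr : ContDiff ℝ ∞ S.r) (hw : ContDiff ℝ ∞ S.w) (h0 : ∀ q, 0 < S.r q) :
    IsSpacetime IsSmooth (sp S) where
  tensor := by
    intro c c' T hT y hy hon
    obtain ⟨h1, h2, h3, h4⟩ := trans_map (S := S) (c := c) (c' := c') hy hon hT
    refine ⟨h1, fun a b => ?_, ?_⟩
    · show gS S c y a b = gS S c' (T y) _ _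
      rw [gS_eq S hy, gS_eq S h2, h3, h4, h4]
    · show gS S c' (T y) (lineDeriv ℝ T y (XS c y)) (XS c' (T y)) < 0
      rw [gS_eq S h2, h4, amb_X hy, amb_X h2, GB_X]
      have := O_pos' S ((amb c' (T y)).1, (amb c' (T y)).2.1)
      simp only
      linarith
  signature := by
    intro c y hy
    have k1 : 0 < √(S.O (bq c y)) := Real.sqrt_pos.2 (O_pos' _ _)
    have k2 : 0 < S.r (bq c y) * √(cf y) := mul_pos (h0 _) (Real.sqrt_pos.2 (cf_pos y))
    have k3 : IsLinearMap ℝ (bv c y) :=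
      ⟨fun a b => map_add (fderiv ℝ c.1.ξ.symm (p2 y)) (p2 a) (p2 b),
        fun k a => map_smul (fderiv ℝ c.1.ξ.symm (p2 y)) k (p2 a)⟩
    have k4 : IsLinearMap ℝ fun a : R4 => ((√(S.O (bq c y)) / 2 * ((bv c y a).1 + (bv c y a).2),
        √(S.O (bq c y)) / 2 * ((bv c y a).1 - (bv c y a).2), S.r (bq c y) * √(cf y) * a.2.2.1,
        S.r (bq c y) * √(cf y) * a.2.2.2) : R4) := by
      refine ⟨fun a b => ?_, fun k a => ?_⟩
      · rw [k3.map_add]
        simp only [Prod.fst_add, Prod.snd_add, Prod.mk_add_mk, Prod.mk.injEq]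
        exact ⟨by ring, by ring, by ring, by ring⟩
      · rw [k3.map_smul]
        simp only [Prod.smul_fst, Prod.smul_snd, smul_eq_mul, Prod.smul_mk, Prod.mk.injEq]
        exact ⟨by ring, by ring, by ring, by ring⟩
    refine ⟨_, k4, fun a b hab => ?_, fun a b => ?_⟩
    · simp only [Prod.mk.injEq] at hab
      obtain ⟨q1, q2, q3, q4⟩ := hab
      have q5 := mul_left_cancel₀ (half_pos k1).ne' q1
      have q6 := mul_left_cancel₀ (half_pos k1).ne' q2
      have q7 : bv c y a = bv c y b := Prod.ext (by linarith) (by linarith)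
      have q8 : p2 a = p2 b := by
        rw [← PC.right c.1 hy (p2 a), ← PC.right c.1 hy (p2 b)]
        exact congrArg _ q7
      simp only [p2, Prod.mk.injEq] at q8
      exact Prod.ext q8.1 (Prod.ext q8.2 (Prod.ext (mul_left_cancel₀ k2.ne' q3)
        (mul_left_cancel₀ k2.ne' q4)))
    · have e1 : √(S.O (bq c y)) * √(S.O (bq c y)) = S.O (bq c y) := Real.mul_self_sqrt (O_pos' _ _).le
      have e2 : √(cf y) * √(cf y) = cf y := Real.mul_self_sqrt (cf_pos y).le
      show gS S c y a b = _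
      simp only [gS, mink, P354n.cu, P354n.cv, P354n.c1, P354n.c2]
      linear_combination (1 / 2 * ((bv c y a).1 * (bv c y b).2 + (bv c y a).2 * (bv c y b).1)) * e1 -
        S.r (bq c y) ^ 2 * (a.2.2.1 * b.2.2.1 + a.2.2.2 * b.2.2.2) * e2
  timelike := by
    intro c y hy
    show gS S c y (XS c y) (XS c y) < 0
    rw [gS_eq S hy, amb_X hy, GB_X]
    have := O_pos' S ((amb c y).1, (amb c y).2.1)
    simp only
    linarith
  continuous := by
    intro c
    have h1 : ContinuousOn (fderiv ℝ c.1.ξ) c.1.ξ.source :=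
      c.1.sm.continuousOn_fderiv_of_isOpen c.1.ξ.open_source (by simp)
    have h2 : ContinuousOn (fun y => fderiv ℝ c.1.ξ (bq c y) (1, 1)) {y : R4 | p2 y ∈ c.1.ξ.target} :=
      (h1.comp (bq_smoothOn c).continuousOn fun _ h => c.1.ξ.map_target h).clm_apply
        continuousOn_const
    exact h2.fst.prodMk (h2.snd.prodMk continuousOn_const)
  regular := by
    intro c a b
    have h1 : ContDiffOn ℝ ∞ (fun y => S.O (bq c y)) {y : R4 | p2 y ∈ c.1.ξ.target} :=
      (hw.comp_contDiffOn (bq_smoothOn c)).exp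
    have h2 : ContDiffOn ℝ ∞ (fun y => S.r (bq c y)) {y : R4 | p2 y ∈ c.1.ξ.target} :=
      hr.comp_contDiffOn (bq_smoothOn c)
    have h3 := bv_smooth c a
    have h4 := bv_smooth c b
    exact ((h1.div_const 2).neg.mul ((h3.fst.mul h4.snd).add (h3.snd.mul h4.fst))).add
      (((h2.pow 2).mul cf_smooth.contDiffOn).mul contDiffOn_const)

theorem connected_S2 : ConnectedSpace S2 :=
  isConnected_iff_connectedSpace.1 (isConnected_sphere (by
    rw [← Module.finrank_eq_rank, finrank_euclideanSpace_fin]; norm_num) _ zero_le_one)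

theorem connected_sp (S : Fld) : ConnectedSpace (sp S).pt := by
  have := connected_S2
  show ConnectedSpace (P2 × S2)
  infer_instance

lemma amb_chart {c : PC × Bool} {p : P2 × S2} (h : p ∈ (chart c).source) : amb c (chart c p) = emb p :=
  congrArg emb ((chart c).left_inv h)

lemma chart_tgt {c : PC × Bool} {p : P2 × S2} (h : p ∈ (chart c).source) :
    p2 (chart c p) ∈ c.1.ξ.target := (chart c).map_source h

/-- A future timelike curve in the ambient space. -/
def ACurve (S : Fld) (m : ℝ) (I : Set ℝ) (c : ℝ → P5) : Prop :=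
  ∀ t ∈ I, ContDiffWithinAt ℝ 1 c I t ∧ Gm S.O S.r (c t) (derivWithin c I t) < -m ∧
    0 < (derivWithin c I t).1 + (derivWithin c I t).2.1

lemma curve_key {I : Set ℝ} (hI : UniqueDiffOn ℝ I) {a : ℝ → P2 × S2} {t : ℝ} (ht : t ∈ I)
    (hc : ContinuousWithinAt a I t) {c : PC × Bool} (hon : a t ∈ (chart c).source)
    (hd : ContDiffWithinAt ℝ 1 (fun s => chart c (a s)) I t) :
    ContDiffWithinAt ℝ 1 (fun s => emb (a s)) I t ∧ derivWithin (fun s => emb (a s)) I t =
      fderiv ℝ (amb c) (chart c (a t)) (derivWithin (fun s => chart c (a s)) I t) := by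
  have h1 : (fun s => emb (a s)) =ᶠ[𝓝[I] t] fun s => amb c (chart c (a s)) := by
    filter_upwards [hc.eventually ((chart c).open_source.mem_nhds hon)] with s hs
    exact (amb_chart hs).symm
  have h2 := (amb_chart hon).symm
  have h3 := chart_tgt hon
  refine ⟨(ContDiffAt.comp_contDiffWithinAt (g := amb c) (f := fun s => chart c (a s)) t
    ((amb_smooth h3).of_le (by simp)) hd).congr_of_eventuallyEq_of_mem h1 ht, ?_⟩
  rw [h1.derivWithin_eq h2]
  exact ((amb_diff h3).comp_hasDerivWithinAt t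
    (hd.differentiableWithinAt one_ne_zero).hasDerivWithinAt).derivWithin (hI t ht)

/-- **The curve lemma.** -/
theorem curve_iff {S : Fld} {m : ℝ} {I : Set ℝ} (hI : UniqueDiffOn ℝ I) {a : ℝ → P2 × S2} :
    IsFutureCurve (sp S) m I a ↔ ACurve S m I fun s => emb (a s) := by
  constructor
  · rintro ⟨h1, h2⟩ t ht
    obtain ⟨c, hc⟩ : ∃ c : PC × Bool, a t ∈ (chart c).source := (sp S).cover (a t)
    obtain ⟨h3, h4⟩ := h2 t ht c hc
    obtain ⟨h5, h6⟩ := curve_key hI ht (h1 t ht) hc h3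
    obtain ⟨h7, h8⟩ : gS S c (chart c (a t)) (derivWithin (fun s => chart c (a s)) I t)
        (derivWithin (fun s => chart c (a s)) I t) < -m ∧ gS S c (chart c (a t))
        (derivWithin (fun s => chart c (a s)) I t) (XS c (chart c (a t))) < 0 := h4 _ _ rfl rfl
    have h9 := chart_tgt hc
    rw [gS_eq S h9, ← h6, amb_chart hc, GB_self] at h7
    rw [gS_eq S h9, ← h6, amb_X h9, GB_X] at h8
    refine ⟨h5, h7, ?_⟩
    have := O_pos' S ((amb c (chart c (a t))).1, (amb c (chart c (a t))).2.1)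
    by_contra hn
    nlinarith
  · intro h
    have h1 : ContinuousOn a I :=
      emb_inducing.continuousOn_iff.2 fun t ht => (h t ht).1.continuousWithinAt
    refine ⟨h1, fun t ht (c : PC × Bool) (hc : a t ∈ (chart c).source) => ?_⟩
    have h3 : ContDiffWithinAt ℝ 1 (fun s => chart c (a s)) I t :=
      ContDiffAt.comp_contDiffWithinAt (g := coA c) (f := fun s => emb (a s)) t
        ((coA_smooth (S := S) hc).of_le (by simp)) (h t ht).1
    obtain ⟨-, h6⟩ := curve_key hI ht (h1 t ht) hc h3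
    have h9 := chart_tgt hc
    refine ⟨h3, ?_⟩
    rintro _ _ rfl rfl
    show gS S c (chart c (a t)) (derivWithin (fun s => chart c (a s)) I t)
        (derivWithin (fun s => chart c (a s)) I t) < -m ∧ gS S c (chart c (a t))
        (derivWithin (fun s => chart c (a s)) I t) (XS c (chart c (a t))) < 0
    rw [gS_eq S h9, gS_eq S h9, ← h6, amb_chart hc, GB_self, amb_X h9, GB_X]
    refine ⟨(h t ht).2.1, ?_⟩
    have k1 := O_pos' S ((emb (a t)).1, (emb (a t)).2.1)
    have k2 := (h t ht).2.2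
    nlinarith

lemma pos_of_Gm {S : Fld} {p w : P5} (h1 : Gm S.O S.r p w < 0) (h2 : 0 < w.1 + w.2.1) :
    0 < w.1 ∧ 0 < w.2.1 := by
  have k1 := O_pos' S (p.1, p.2.1)
  have k2 : 0 < w.1 * w.2.1 := by
    by_contra hn
    have k3 : 0 ≤ S.r (p.1, p.2.1) ^ 2 * ‖w.2.2‖ ^ 2 := by positivity
    simp only [Gm] at h1
    nlinarith
  rcases mul_pos_iff.1 k2 with k | k
  · exact k
  · linarith [k.1, k.2]

/-- A future curve on an interval which contains `(0, 1)`, in the ambient space. -/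
theorem cur_of_curve {S : Fld} {I : Set ℝ} (hI : UniqueDiffOn ℝ I) (hsub : Ioo 0 1 ⊆ I)
    {a : ℝ → P2 × S2} (h : IsFutureCurve (sp S) 0 I a) :
    Cur S.O S.r (fun s => emb (a s)) (deriv fun s => emb (a s)) := by
  rw [curve_iff hI] at h
  have hn : ∀ t ∈ Ioo (0:ℝ) 1, I ∈ 𝓝 t := fun t ht => mem_of_superset (Ioo_mem_nhds ht.1 ht.2) hsub
  have h1 : ∀ t ∈ Ioo (0:ℝ) 1, ContDiffAt ℝ 1 (fun s => emb (a s)) t := fun t ht =>
    (h t (hsub ht)).1.contDiffAt (hn t ht)
  refine ⟨fun t ht => ((h1 t ht).differentiableAt one_ne_zero).hasDerivAt,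
    ContDiffOn.continuousOn_deriv_of_isOpen (fun t ht => (h1 t ht).contDiffWithinAt) isOpen_Ioo le_rfl,
    fun t _ => emb_norm _, fun t ht => ?_⟩
  obtain ⟨-, h2, h3⟩ := h t (hsub ht)
  rw [derivWithin_of_mem_nhds (hn t ht), neg_zero] at h2
  rw [derivWithin_of_mem_nhds (hn t ht)] at h3
  exact ⟨h2, pos_of_Gm h2 h3⟩

open Classical in
/-- A left inverse of the embedding. -/
noncomputable def prj (z : P5) : P2 × S2 :=
  ((z.1, z.2.1), if h : ‖z.2.2‖ = 1 then ⟨z.2.2, mem_sphere_zero_iff_norm.2 h⟩ else st true 0)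

lemma emb_prj {z : P5} (h : ‖z.2.2‖ = 1) : emb (prj z) = z := by
  simp only [emb, prj, dif_pos h]

lemma prj_emb (p : P2 × S2) : prj (emb p) = p := emb_inj (emb_prj (emb_norm p))

lemma curve_of_fam {S : Fld} {m : ℝ} {c c' : ℝ → P5} {a : ℝ → P2 × S2} (h1 : ∀ x, HasDerivAt c (c' x) x)
    (h2 : Continuous c') (h3 : ∀ x ∈ Icc (0:ℝ) 1, emb (a x) = c x)
    (h4 : ∀ x ∈ Icc (0:ℝ) 1, Gm S.O S.r (c x) (c' x) < -m ∧ 0 < (c' x).1 ∧ 0 < (c' x).2.1) :
    IsFutureCurve (sp S) m (Icc 0 1) a := by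
  have hI : UniqueDiffOn ℝ (Icc (0:ℝ) 1) := uniqueDiffOn_Icc zero_lt_one
  rw [curve_iff hI]
  intro t ht
  have k1 : ContDiff ℝ 1 c := by
    rw [contDiff_one_iff_deriv]
    refine ⟨fun x => (h1 x).differentiableAt, ?_⟩
    rw [show deriv c = c' from funext fun x => (h1 x).deriv]
    exact h2
  have k2 : derivWithin (fun s => emb (a s)) (Icc 0 1) t = c' t := by
    rw [derivWithin_congr h3 (h3 t ht)]
    exact (h1 t).hasDerivWithinAt.derivWithin (hI t ht)
  refine ⟨k1.contDiffWithinAt.congr h3 (h3 t ht), ?_, ?_⟩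
  · rw [k2]
    simp only [h3 t ht]
    exact (h4 t ht).1
  · rw [k2]
    linarith [(h4 t ht).2.1, (h4 t ht).2.2]

/-- Far curves. -/
theorem isFar_of_farA {S : Fld} {a : ℝ → P2 × S2} (h : FarA S.O S.r fun s => emb (a s)) :
    IsFar (sp S) a := by
  classical
  intro b hb
  obtain ⟨s, hs, -, h⟩ := h b hb
  refine ⟨s, hs, fun L => ?_⟩
  obtain ⟨t, ht, H, H', k1, k2, k3⟩ := h L
  obtain ⟨K, hK⟩ : ∃ K : ℝ × ℝ → P2 × S2, K = fun q =>
    if q.2 ∈ Icc (0:ℝ) 1 then prj (H q.1 q.2) else a (s + (t - s) * q.2) := ⟨_, rfl⟩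
  have e : ∀ y, ∀ x ∈ Icc (0:ℝ) 1, emb (K (y, x)) = H y x := by
    intro y x hx
    simp only [hK, if_pos hx]
    exact emb_prj (k1.sph y x hx)
  have m0 : (0:ℝ) ∈ Icc (0:ℝ) 1 := ⟨le_rfl, zero_le_one⟩
  have m1 : (1:ℝ) ∈ Icc (0:ℝ) 1 := ⟨zero_le_one, le_rfl⟩
  refine ⟨t, ht, K, ?_, fun x => ?_, fun y _ => ⟨?_, ?_, ?_⟩, ?_⟩
  · refine emb_inducing.continuousOn_iff.2 (k1.cont.continuousOn.congr fun q hq => e q.1 q.2 hq.2)
  · by_cases hx : x ∈ Icc (0:ℝ) 1
    · exact emb_inj ((e 0 x hx).trans (k2 x hx))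
    · simp only [hK, if_neg hx]
      rfl
  · refine curve_of_fam (k1.der y) (k1.cder y) (e y) fun x hx => ?_
    rw [neg_zero]
    exact k1.tl y x hx
  · refine emb_inj ?_
    rw [e y 0 m0, k1.e0, k2 0 m0]
    simp
  · refine emb_inj ?_
    rw [e y 1 m1, k1.e1, k2 1 m1]
    simp
  · exact curve_of_fam (k1.der 1) (k1.cder 1) (e 1) fun x hx => ⟨k3 x hx, (k1.tl 1 x hx).2⟩

end Vale.Agent.P354F
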